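import Vale.Agent.P146.H479.Merge
import Vale.Agent.P146.H758.Sand

set_option linter.all false

/-!
Removal of a small field of the outermost level: the structural form for any law, by splitting the
level one.
-/

open MeasureTheory ProbabilityTheory

namespace Vale.Agent.P146.H310

open Vale.Agent.P157 Vale.Agent.P157.Lv Vale.Agent.P157.Lv.Sy
open Vale.Agent.P146.H425 Vale.Agent.P146.H325 Vale.Agent.P146.H93 Vale.Agent.P146.H479
open Vale.Agent.P146.H758 (tv em_mono)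

variable {n K : ℕ} {m b w : ℕ → ℝ} {β x A D s : ℝ}

/-- the exponents after the level one has been split in two -/
def spM (m : ℕ → ℝ) : ℕ → ℝ := fun j => if j ≤ 1 then m j else m (j - 1)

/-- the amplitudes after the level one has been split in two -/
def spB (b : ℕ → ℝ) (b1 b2 : ℝ) : ℕ → ℝ :=
  fun j => if j = 1 then b1 else if j = 2 then b2 else b (j - 1)

lemma spM_one (m : ℕ → ℝ) : spM m 1 = m 1 := by simp [spM]
lemma spM_zero (m : ℕ → ℝ) : spM m 0 = m 0 := by simp [spM]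
lemma spM_succ (m : ℕ → ℝ) {j : ℕ} (h : 1 ≤ j) : spM m (j + 1) = m j := by
  unfold spM
  rw [if_neg (by omega)]
  rfl
lemma spB_one (b : ℕ → ℝ) (b1 b2 : ℝ) : spB b b1 b2 1 = b1 := by simp [spB]
lemma spB_two (b : ℕ → ℝ) (b1 b2 : ℝ) : spB b b1 b2 2 = b2 := by simp [spB]
lemma spB_succ (b : ℕ → ℝ) (b1 b2 : ℝ) {j : ℕ} (h : 2 ≤ j) : spB b b1 b2 (j + 1) = b j := by
  unfold spB
  rw [if_neg (by omega), if_neg (by omega)]
  rfl

lemma em_spM (hm : Em K m) (hK : 1 ≤ K) : Em (K + 1) (spM m) where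
  m0 := by rw [spM_zero, hm.m0]
  mK := by rw [spM_succ m (by omega), hm.mK]
  mono := by
    intro l hl
    rcases Nat.eq_zero_or_pos l with rfl | h
    · rw [spM_zero, spM_one]
      exact hm.mono 0 (by omega)
    · rw [spM_succ m h]
      rcases (by omega : l = 1 ∨ 2 ≤ l) with rfl | h2
      · rw [spM_one]
      · obtain ⟨k, rfl⟩ : ∃ k, l = k + 1 := ⟨l - 1, by omega⟩
        rw [spM_succ m (by omega)]
        exact hm.mono k (by omega)
  pos := by rw [spM_one]; exact hm.pos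

/-- **The split of the level one.** -/
lemma fe_split (hm : Em K m) (hK : 1 ≤ K) {b1 b2 w1 w2 : ℝ} (hb : b1 ^ 2 + b2 ^ 2 = b 1 ^ 2)
    (hw : w1 ^ 2 + w2 ^ 2 = w 1 ^ 2) :
    (skS n (K + 1) (spM m) (spB b b1 b2) (spB w w1 w2)).fe = (skS n K m b w).fe := by
  have hcl : ClS n 1 (spM m) (spB b b1 b2) (spB w w1 w2) m b w := by
    refine ClS.merge le_rfl (fun j h1 h2 => by omega) (fun j hj => ⟨?_, ?_, ?_⟩) ?_ ?_ ?_ ?_ ?_
    · rw [spM_succ m (by omega)]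
    · rw [spB_succ b b1 b2 (by omega)]
    · rw [spB_succ w w1 w2 (by omega)]
    · rw [spM_one]; exact hm.pos
    · rw [spM_succ m le_rfl, spM_one]
    · rw [spM_one]
    · rw [spB_one, spB_two]; exact hb
    · rw [spB_one, spB_two]; exact hw
  exact fe_cl hcl (em_spM hm hK) hm hK

/-- the field removal for laws whose level one has the share `1 - A x²` exactly (the conclusion of
`H379.FS.field_rem`) -/
def FR (β D : ℝ) (n : ℕ) (x A : ℝ) : Prop :=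
  ∀ (K : ℕ) (m b w c : ℕ → ℝ), Em (K + 2) m → m 1 = x →
    (∀ j, 2 ≤ j → j ≤ K + 2 → x ≤ m j ∧ m j ≤ 2 * x) →
    (∀ j, 1 ≤ j → j ≤ K + 2 → b j = β / √n * c j) → c 1 = √(1 - A * x ^ 2) →
    ∑ j ∈ Finset.Ico 1 (K + 2), c (j + 1) ^ 2 = A * x ^ 2 → A * x ^ 2 ≤ 2 * c 2 ^ 2 →
    (∀ j, 2 ≤ j → j ≤ K + 2 → w j = 0) → w 1 ^ 2 ≤ x → 4 * x ^ 2 ≤ β →
    (skS n (K + 2) m b w).fe ≤ (skS n (K + 2) m b fun _ => 0).fe + n * w 1 ^ 2 / (2 * β) +
      D * (n * x ^ 5) * (A ^ (-(1 / 1000) : ℝ) + A * (w 1 ^ 2 / x ^ 3) + 1 / (n * x ^ 6))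

/-- **The field removal for any law** whose levels `2, …, K` have the total share `s x²`,
`2 s ≤ A`. -/
theorem law_of_FR (hFR : FR β D n x A) (hβ : 0 < β) (hn : 0 < n) (hK : 1 ≤ K) (hm : Em K m)
    (hx : m 1 = x) (hm2 : m K ≤ 2 * x) (hA0 : 0 ≤ A) (hA : A * x ^ 2 ≤ 1) (hs : 2 * s ≤ A)
    (hb1 : b 1 ^ 2 = β ^ 2 / n * (1 - s * x ^ 2))
    (hbs : ∑ j ∈ Finset.Ico 1 K, b (j + 1) ^ 2 = β ^ 2 / n * (s * x ^ 2))
    (hw0 : ∀ j, 2 ≤ j → j ≤ K → w j = 0) (hw1 : w 1 ^ 2 ≤ x) (hxβ : 4 * x ^ 2 ≤ β) :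
    (skS n K m b w).fe ≤ (skS n K m b fun _ => 0).fe + n * w 1 ^ 2 / (2 * β) +
      D * (n * x ^ 5) * (A ^ (-(1 / 1000) : ℝ) + A * (w 1 ^ 2 / x ^ 3) + 1 / (n * x ^ 6)) := by
  obtain ⟨k, rfl⟩ : ∃ k, K = k + 1 := ⟨K - 1, by omega⟩
  have hn' : (0 : ℝ) < n := Nat.cast_pos.2 hn
  have hsn : (0 : ℝ) < √n := Real.sqrt_pos.2 hn'
  have hs2 : √(n : ℝ) ^ 2 = n := Real.sq_sqrt hn'.le
  have hs0 : 0 ≤ s * x ^ 2 := by
    have h1 : 0 ≤ ∑ j ∈ Finset.Ico 1 (k + 1), b (j + 1) ^ 2 := Finset.sum_nonneg fun _ _ => sq_nonneg _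
    rw [hbs] at h1
    have h2 : 0 < β ^ 2 / n := by positivity
    exact nonneg_of_mul_nonneg_right h1 h2
  have hAs : 0 ≤ (A - s) * x ^ 2 := by nlinarith [sq_nonneg x]
  obtain ⟨c, hc⟩ : ∃ c : ℕ → ℝ, c = spB (fun j => √n / β * b j) √(1 - A * x ^ 2)
    √((A - s) * x ^ 2) := ⟨_, rfl⟩
  have hc1 : c 1 = √(1 - A * x ^ 2) := by rw [hc, spB_one]
  have hc2 : c 2 = √((A - s) * x ^ 2) := by rw [hc, spB_two]
  have hcs : ∀ j, 2 ≤ j → c (j + 1) = √n / β * b j := fun j hj => by rw [hc, spB_succ _ _ _ hj]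
  have hc1s : c 1 ^ 2 = 1 - A * x ^ 2 := by rw [hc1]; exact Real.sq_sqrt (by linarith)
  have hc2s : c 2 ^ 2 = (A - s) * x ^ 2 := by rw [hc2]; exact Real.sq_sqrt hAs
  obtain ⟨b', hb'⟩ : ∃ b' : ℕ → ℝ, b' = spB b (β / √n * c 1) (β / √n * c 2) := ⟨_, rfl⟩
  have hsplit : (β / √n * c 1) ^ 2 + (β / √n * c 2) ^ 2 = b 1 ^ 2 := by
    rw [hb1, mul_pow, mul_pow, hc1s, hc2s, div_pow, hs2]
    ring
  have hfe : ∀ v : ℕ → ℝ, (skS n (k + 1 + 1) (spM m) b' (spB v (v 1) 0)).fe = (skS n (k + 1) m b v).fe := by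
    intro v
    rw [hb']
    exact fe_split hm hK hsplit (by ring)
  have key := hFR k (spM m) b' (spB w (w 1) 0) c (em_spM hm hK) (by rw [spM_one]; exact hx)
    (fun j h1 h2 => ?_) (fun j h1 h2 => ?_) hc1 ?_ ?_ (fun j h1 h2 => ?_) ?_ hxβ
  · rw [spB_one, hfe] at key
    have e0 : (skS n (k + 1 + 1) (spM m) b' (fun _ => 0)).fe = (skS n (k + 1) m b (fun _ => 0)).fe := by
      have h1 := hfe (fun _ => 0)
      have h2 : spB (fun _ : ℕ => (0 : ℝ)) 0 0 = fun _ => 0 := by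
        funext j
        unfold spB
        split_ifs <;> rfl
      rw [h2] at h1
      exact h1
    rw [e0] at key
    exact key
  · obtain ⟨l, rfl⟩ : ∃ l, j = l + 1 := ⟨j - 1, by omega⟩
    rw [spM_succ m (by omega)]
    refine ⟨?_, (em_mono hm (show l ≤ k + 1 by omega) (by omega)).trans hm2⟩
    rw [← hx]
    exact em_mono hm (show 1 ≤ l by omega) (by omega)
  · rcases (by omega : j = 1 ∨ j = 2 ∨ 3 ≤ j) with rfl | rfl | h3
    · rw [hb', spB_one]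
    · rw [hb', spB_two]
    · obtain ⟨l, rfl⟩ : ∃ l, j = l + 1 := ⟨j - 1, by omega⟩
      rw [hb', spB_succ _ _ _ (by omega), hcs l (by omega)]
      field_simp
  · rw [Finset.sum_eq_sum_Ico_succ_bot (show 1 < k + 2 by omega)]
    show c 2 ^ 2 + ∑ j ∈ Finset.Ico 2 (k + 2), c (j + 1) ^ 2 = _
    have e1 : ∑ j ∈ Finset.Ico 2 (k + 2), c (j + 1) ^ 2 =
        ∑ j ∈ Finset.Ico 1 (k + 1), n / β ^ 2 * b (j + 1) ^ 2 := by
      rw [Finset.sum_Ico_eq_sum_range, Finset.sum_Ico_eq_sum_range]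
      refine Finset.sum_congr (by congr 1) fun j _ => ?_
      rw [hcs (2 + j) (by omega), show 2 + j = 1 + j + 1 by omega, mul_pow, div_pow, hs2]
    rw [e1, ← Finset.mul_sum, hbs, hc2s]
    field_simp
    ring
  · rw [hc2s]
    nlinarith [sq_nonneg x]
  · rcases (by omega : j = 2 ∨ 3 ≤ j) with rfl | h3
    · rw [spB_two]
    · obtain ⟨l, rfl⟩ : ∃ l, j = l + 1 := ⟨j - 1, by omega⟩
      rw [spB_succ _ _ _ (by omega)]
      exact hw0 l (by omega) (by omega)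
  · rw [spB_one]; exact hw1

end Vale.Agent.P146.H310
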