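import Vale.Agent.P146.H310.Sp4

set_option linter.all false

/-!
The two-time second moment of the likelihood of a spherical spike.
-/

open MeasureTheory ProbabilityTheory

namespace Vale.Agent.P146.H310

open Vale.Agent.P157.Lv

variable {n : ℕ} {κ : Type} [Fintype κ] {m : (Fin n → ℝ) → κ → ℝ}

lemma integrable_prod_exp {Ω : Type*} [MeasurableSpace Ω] {μ : Measure Ω} [IsProbabilityMeasure μ]
    {F : Ω × (κ → ℝ) → ℝ} (hF : Measurable F) {C k : ℝ}
    (hb : ∀ p, |F p| ≤ C * Real.exp (k * ‖p.2‖)) : Integrable F (μ.prod (gI κ)) := by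
  have h1 : Integrable (fun p : Ω × (κ → ℝ) => C * Real.exp (k * ‖p.2‖)) (μ.prod (gI κ)) :=
    (integrable_const C).mul_prod (integrable_exp_norm k)
  refine h1.mono hF.aestronglyMeasurable (Filter.Eventually.of_forall fun p => ?_)
  rw [Real.norm_eq_abs]
  exact (hb p).trans (le_abs_self _)

/-- the exponential moment of a linear form -/
lemma gI_exp_lin (v : κ → ℝ) :
    ∫ z, Real.exp (∑ e, v e * z e) ∂(gI κ) = Real.exp ((∑ e, v e ^ 2) / 2) := by
  have h := H425.gI_shift v (fun z => Real.exp (∑ e, v e * z e))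
  rw [h]
  have e : ∀ z : κ → ℝ, Real.exp (-(∑ i, v i * z i) - (∑ i, v i ^ 2) / 2) *
      Real.exp (∑ e, v e * (z + v) e) = Real.exp ((∑ e, v e ^ 2) / 2) := by
    intro z
    rw [← Real.exp_add]
    congr 1
    have : ∑ e, v e * (z + v) e = (∑ i, v i * z i) + ∑ i, v i ^ 2 := by
      rw [← Finset.sum_add_distrib]
      exact Finset.sum_congr rfl fun i _ => by simp only [Pi.add_apply]; ring
    rw [this]
    ring
  simp_rw [e]
  simp

/-- the pair of the features of two directions -/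
noncomputable def SS (m : (Fin n → ℝ) → κ → ℝ) (p : (Fin n → ℝ) × (Fin n → ℝ)) : κ → ℝ :=
  m (dir p.1) + m (dir p.2)

lemma Feat.meas_SS (hm : Feat m) : Measurable (SS m) :=
  (hm.meas.comp (measurable_dir.comp measurable_fst)).add
    (hm.meas.comp (measurable_dir.comp measurable_snd))

lemma Feat.SS_le (hm : Feat m) (p : (Fin n → ℝ) × (Fin n → ℝ)) (e : κ) : |SS m p e| ≤ 2 := by
  unfold SS
  rw [Pi.add_apply]
  have h1 := hm.abs_le p.1 e
  have h2 := hm.abs_le p.2 e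
  exact (abs_add_le _ _).trans (by linarith)

lemma Feat.SS_norm (hm : Feat m) (p : (Fin n → ℝ) × (Fin n → ℝ)) : ‖SS m p‖ ≤ 2 := by
  rw [pi_norm_le_iff_of_nonneg (by norm_num)]
  intro e
  rw [Real.norm_eq_abs]
  exact hm.SS_le p e

lemma Feat.SS_dot_le (hm : Feat m) (z : κ → ℝ) (p : (Fin n → ℝ) × (Fin n → ℝ)) :
    |∑ e, z e * SS m p e| ≤ 2 * Fintype.card κ * ‖z‖ := by
  refine (Finset.abs_sum_le_sum_abs _ _).trans ?_
  have : ∀ e ∈ (Finset.univ : Finset κ), |z e * SS m p e| ≤ 2 * ‖z‖ := by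
    intro e _
    rw [abs_mul]
    have h1 := hm.SS_le p e
    have h2 : |z e| ≤ ‖z‖ := norm_le_pi_norm z e
    calc |z e| * |SS m p e| ≤ ‖z‖ * 2 := by gcongr
      _ = 2 * ‖z‖ := mul_comm _ _
  refine (Finset.sum_le_sum this).trans (le_of_eq ?_)
  simp
  ring

lemma Feat.SS_sq (hm : Feat m) {p : (Fin n → ℝ) × (Fin n → ℝ)} (h1 : p.1 ≠ 0) (h2 : p.2 ≠ 0) :
    ∑ e, SS m p e ^ 2 = 2 + 2 * ov p := by
  have e : ∑ e, SS m p e ^ 2 = (∑ e, m (dir p.1) e * m (dir p.1) e) +
      (∑ e, m (dir p.2) e * m (dir p.2) e) + 2 * ∑ e, m (dir p.1) e * m (dir p.2) e := by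
    rw [Finset.mul_sum, ← Finset.sum_add_distrib, ← Finset.sum_add_distrib]
    refine Finset.sum_congr rfl fun e _ => ?_
    unfold SS
    simp only [Pi.add_apply]
    ring
  rw [e, hm.gram, hm.gram, hm.gram]
  have u1 : ∑ i, dir p.1 i * dir p.1 i = 1 := by
    rw [← dir_unit h1]; exact Finset.sum_congr rfl fun i _ => by ring
  have u2 : ∑ i, dir p.2 i * dir p.2 i = 1 := by
    rw [← dir_unit h2]; exact Finset.sum_congr rfl fun i _ => by ring
  rw [u1, u2]
  unfold ov dt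
  ring

lemma LL_smul (lam rho : ℝ) (z : κ → ℝ) : LL m lam rho (rho • z) = LL m (lam * rho) 1 z := by
  unfold LL
  refine integral_congr_ae (Filter.Eventually.of_forall fun h => ?_)
  simp only
  congr 1
  have : ∑ e, (rho • z) e * m (dir h) e = rho * ∑ e, z e * m (dir h) e := by
    rw [Finset.mul_sum]
    exact Finset.sum_congr rfl fun e _ => by simp only [Pi.smul_apply, smul_eq_mul]; ring
  rw [this]
  ring

/-- the square of the likelihood as a replica integral -/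
lemma LL_sq (lam rho : ℝ) (y : κ → ℝ) :
    LL m lam rho y ^ 2 = ∫ p, Real.exp (lam * ∑ e, y e * SS m p e - lam ^ 2 * rho ^ 2)
      ∂((gI (Fin n)).prod (gI (Fin n))) := by
  unfold LL
  rw [pow_two, ← integral_prod_mul]
  refine integral_congr_ae (Filter.Eventually.of_forall fun p => ?_)
  simp only
  rw [← Real.exp_add]
  congr 1
  have : ∑ e, y e * SS m p e = (∑ e, y e * m (dir p.1) e) + ∑ e, y e * m (dir p.2) e := by
    rw [← Finset.sum_add_distrib]
    exact Finset.sum_congr rfl fun e _ => by unfold SS; simp only [Pi.add_apply]; ring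
  rw [this]
  ring

lemma Feat.meas_pz (hm : Feat m) (y : κ → ℝ) (lam s k : ℝ) :
    Measurable fun q : ((Fin n → ℝ) × (Fin n → ℝ)) × (κ → ℝ) =>
      Real.exp (lam * ∑ e, (y + s • q.2) e * SS m q.1 e - k) := by
  have h1 : ∀ e, Measurable fun q : ((Fin n → ℝ) × (Fin n → ℝ)) × (κ → ℝ) => SS m q.1 e :=
    fun e => (measurable_pi_apply e).comp (hm.meas_SS.comp measurable_fst)
  have h2 : ∀ e, Measurable fun q : ((Fin n → ℝ) × (Fin n → ℝ)) × (κ → ℝ) =>
      (y + s • q.2) e := fun e =>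
    (measurable_pi_apply e).comp ((measurable_snd.const_smul s).const_add y)
  exact (((Finset.measurable_sum _ fun e _ => (h2 e).mul (h1 e)).const_mul lam).sub_const k).exp

/-- the inner average of the squared likelihood -/
lemma Feat.inner_sq (hm : Feat m) (lam rho s : ℝ) (y : κ → ℝ) :
    ∫ z', LL m lam rho (y + s • z') ^ 2 ∂(gI κ) =
      ∫ p, Real.exp (lam * (∑ e, y e * SS m p e) - lam ^ 2 * rho ^ 2 +
        lam ^ 2 * s ^ 2 * (∑ e, SS m p e ^ 2) / 2) ∂((gI (Fin n)).prod (gI (Fin n))) := by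
  simp_rw [LL_sq]
  have hint : Integrable (fun q : ((Fin n → ℝ) × (Fin n → ℝ)) × (κ → ℝ) =>
      Real.exp (lam * ∑ e, (y + s • q.2) e * SS m q.1 e - lam ^ 2 * rho ^ 2))
      (((gI (Fin n)).prod (gI (Fin n))).prod (gI κ)) := by
    refine integrable_prod_exp (hm.meas_pz y lam s _)
      (C := Real.exp (|lam| * (2 * Fintype.card κ * ‖y‖)))
      (k := |lam| * (2 * Fintype.card κ * |s|)) fun q => ?_
    rw [abs_of_pos (Real.exp_pos _), ← Real.exp_add]
    refine Real.exp_le_exp.2 ?_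
    have h1 := hm.SS_dot_le (y + s • q.2) q.1
    have h2 : ‖y + s • q.2‖ ≤ ‖y‖ + |s| * ‖q.2‖ := by
      refine (norm_add_le _ _).trans ?_
      rw [norm_smul, Real.norm_eq_abs]
    have h3 : lam * ∑ e, (y + s • q.2) e * SS m q.1 e ≤
        |lam| * (2 * Fintype.card κ * (‖y‖ + |s| * ‖q.2‖)) := by
      refine (le_abs_self _).trans ?_
      rw [abs_mul]
      have h4 : (2 * (Fintype.card κ : ℝ)) * ‖y + s • q.2‖ ≤
        2 * Fintype.card κ * (‖y‖ + |s| * ‖q.2‖) := by gcongr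
      exact mul_le_mul_of_nonneg_left (h1.trans h4) (abs_nonneg _)
    have h5 : 0 ≤ lam ^ 2 * rho ^ 2 := by positivity
    nlinarith
  have hswap := integral_integral_swap (μ := (gI (Fin n)).prod (gI (Fin n))) (ν := gI κ)
    (f := fun p z' => Real.exp (lam * ∑ e, (y + s • z') e * SS m p e - lam ^ 2 * rho ^ 2)) hint
  rw [← hswap]
  refine integral_congr_ae (Filter.Eventually.of_forall fun p => ?_)
  simp only
  have e1 : ∀ z' : κ → ℝ, Real.exp (lam * ∑ e, (y + s • z') e * SS m p e - lam ^ 2 * rho ^ 2) =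
      Real.exp (lam * (∑ e, y e * SS m p e) - lam ^ 2 * rho ^ 2) *
        Real.exp (∑ e, (lam * s * SS m p e) * z' e) := by
    intro z'
    rw [← Real.exp_add]
    congr 1
    have : ∑ e, (y + s • z') e * SS m p e = (∑ e, y e * SS m p e) +
        s * ∑ e, z' e * SS m p e := by
      rw [Finset.mul_sum, ← Finset.sum_add_distrib]
      exact Finset.sum_congr rfl fun e _ => by
        simp only [Pi.add_apply, Pi.smul_apply, smul_eq_mul]; ring
    have h2 : ∑ e, (lam * s * SS m p e) * z' e = lam * s * ∑ e, z' e * SS m p e := by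
      rw [Finset.mul_sum]
      exact Finset.sum_congr rfl fun e _ => by ring
    rw [this, h2]
    ring
  simp_rw [e1]
  rw [integral_const_mul, gI_exp_lin, ← Real.exp_add]
  congr 1
  have : ∑ e, (lam * s * SS m p e) ^ 2 = lam ^ 2 * s ^ 2 * ∑ e, SS m p e ^ 2 := by
    rw [Finset.mul_sum]
    exact Finset.sum_congr rfl fun e _ => by ring
  rw [this]

/-- Cameron-Martin for the reciprocal -/
lemma Feat.shift_inv (hm : Feat m) (a : ℝ) (S : κ → ℝ) :
    ∫ z, Real.exp (a * ∑ e, z e * S e) * (LL m a 1 z)⁻¹ ∂(gI κ) =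
      Real.exp (a ^ 2 * (∑ e, S e ^ 2) / 2) * GG m a S := by
  rw [H425.gI_shift (a • S)]
  unfold GG
  rw [← integral_const_mul]
  refine integral_congr_ae (Filter.Eventually.of_forall fun z => ?_)
  simp only
  rw [← mul_assoc, ← Real.exp_add]
  congr 2
  have h1 : ∑ i, (a • S) i * z i = a * ∑ e, z e * S e := by
    rw [Finset.mul_sum]
    exact Finset.sum_congr rfl fun e _ => by simp only [Pi.smul_apply, smul_eq_mul]; ring
  have h2 : ∑ i, (a • S) i ^ 2 = a ^ 2 * ∑ e, S e ^ 2 := by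
    rw [Finset.mul_sum]
    exact Finset.sum_congr rfl fun e _ => by simp only [Pi.smul_apply, smul_eq_mul]; ring
  have h3 : ∑ e, (z + a • S) e * S e = (∑ e, z e * S e) + a * ∑ e, S e ^ 2 := by
    rw [Finset.mul_sum, ← Finset.sum_add_distrib]
    exact Finset.sum_congr rfl fun e _ => by
      simp only [Pi.add_apply, Pi.smul_apply, smul_eq_mul]; ring
  rw [h1, h2, h3]
  ring

lemma Feat.meas_GG (hm : Feat m) (a : ℝ) : Measurable fun p => GG m a (SS m p) := by
  have h1 : Measurable fun q : ((Fin n → ℝ) × (Fin n → ℝ)) × (κ → ℝ) =>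
      (LL m a 1 (q.2 + a • SS m q.1))⁻¹ := by
    refine ((hm.LL_meas a 1).comp ?_).inv
    exact measurable_snd.add ((hm.meas_SS.comp measurable_fst).const_smul a)
  exact (h1.stronglyMeasurable.integral_prod_right' (ν := gI κ)).measurable

lemma Feat.GG_bdd (hm : Feat m) (a : ℝ) : ∃ C, ∀ p, |GG m a (SS m p)| ≤ C := by
  obtain ⟨C, k, hC, hk, hb⟩ := (hm.LLinv_eg a 1).bdd
  refine ⟨∫ z, C * Real.exp (k * (|a| * 2)) * Real.exp (k * ‖z‖) ∂(gI κ), fun p => ?_⟩
  rw [abs_of_pos (hm.GG_pos a _)]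
  refine integral_mono (hm.GG_eg a _).integrable ((integrable_exp_norm k).const_mul _) fun z => ?_
  refine (le_abs_self _).trans ((hb _).trans ?_)
  rw [mul_assoc, ← Real.exp_add]
  gcongr
  have h1 : ‖z + a • SS m p‖ ≤ ‖z‖ + |a| * 2 := by
    refine (norm_add_le _ _).trans ?_
    rw [norm_smul, Real.norm_eq_abs]
    have := hm.SS_norm p
    gcongr
  nlinarith [mul_le_mul_of_nonneg_left h1 hk]

lemma ae_pair_ne (hn : 0 < n) : ∀ᵐ p ∂((gI (Fin n)).prod (gI (Fin n))), p.1 ≠ 0 ∧ p.2 ≠ 0 := by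
  have s1 : ∀ᵐ p ∂((gI (Fin n)).prod (gI (Fin n))), p.1 ≠ 0 :=
    Measure.quasiMeasurePreserving_fst.ae (ae_ne_zero hn)
  have s2 : ∀ᵐ p ∂((gI (Fin n)).prod (gI (Fin n))), p.2 ≠ 0 :=
    Measure.quasiMeasurePreserving_snd.ae (ae_ne_zero hn)
  filter_upwards [s1, s2] with p h1 h2
  exact ⟨h1, h2⟩

/-- The two-time identity. -/
lemma Feat.two_time (hm : Feat m) (hn : 0 < n) {lam rho r s : ℝ} (hrho : rho ^ 2 = r ^ 2 + s ^ 2) :
    ∫ z, (∫ z', LL m lam rho (r • z + s • z') ^ 2 ∂(gI κ)) * (LL m lam r (r • z))⁻¹ ∂(gI κ) =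
      ∫ p, Real.exp ((lam * rho) ^ 2 * ov p) * GG m (lam * r) (SS m p)
        ∂((gI (Fin n)).prod (gI (Fin n))) := by
  simp_rw [hm.inner_sq, LL_smul]
  set F : ((Fin n → ℝ) × (Fin n → ℝ)) × (κ → ℝ) → ℝ := fun q =>
    Real.exp (lam * (∑ e, (r • q.2) e * SS m q.1 e) - lam ^ 2 * rho ^ 2 +
        lam ^ 2 * s ^ 2 * (∑ e, SS m q.1 e ^ 2) / 2) * (LL m (lam * r) 1 q.2)⁻¹ with hF
  have hFm : Measurable F := by
    have h1 : ∀ e, Measurable fun q : ((Fin n → ℝ) × (Fin n → ℝ)) × (κ → ℝ) => SS m q.1 e :=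
      fun e => (measurable_pi_apply e).comp (hm.meas_SS.comp measurable_fst)
    have h2 : ∀ e, Measurable fun q : ((Fin n → ℝ) × (Fin n → ℝ)) × (κ → ℝ) =>
        (r • q.2) e := fun e => (measurable_pi_apply e).comp (measurable_snd.const_smul r)
    have h3 : Measurable fun q : ((Fin n → ℝ) × (Fin n → ℝ)) × (κ → ℝ) =>
        (LL m (lam * r) 1 q.2)⁻¹ := ((hm.LL_meas (lam * r) 1).comp measurable_snd).inv
    refine Measurable.mul (Measurable.exp ?_) h3
    refine Measurable.add ?_ ?_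
    · exact ((Finset.measurable_sum _ fun e _ => (h2 e).mul (h1 e)).const_mul lam).sub_const _
    · exact ((Finset.measurable_sum _ fun e _ => (h1 e).pow_const 2).const_mul _).div_const 2
  have hSSsq : ∀ p, ∑ e, SS m p e ^ 2 ≤ 4 * Fintype.card κ := by
    intro p
    have : ∀ e ∈ (Finset.univ : Finset κ), SS m p e ^ 2 ≤ 4 := by
      intro e _
      have h1 := hm.SS_le p e
      rw [← sq_abs]
      nlinarith [abs_nonneg (SS m p e)]
    refine (Finset.sum_le_sum this).trans (le_of_eq ?_)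
    simp
    ring
  have hint : Integrable F (((gI (Fin n)).prod (gI (Fin n))).prod (gI κ)) := by
    obtain ⟨C, k, hC, hk, hb⟩ := (hm.LLinv_eg (lam * r) 1).bdd
    refine integrable_prod_exp hFm
      (C := C * Real.exp (lam ^ 2 * s ^ 2 * (4 * Fintype.card κ) / 2))
      (k := k + |lam| * (2 * Fintype.card κ * |r|)) fun q => ?_
    simp only [hF]
    rw [abs_mul, abs_of_pos (Real.exp_pos _)]
    have h1 := hb q.2
    have h2 : lam * (∑ e, (r • q.2) e * SS m q.1 e) ≤
        |lam| * (2 * Fintype.card κ * |r|) * ‖q.2‖ := by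
      refine (le_abs_self _).trans ?_
      rw [abs_mul]
      have h3 := hm.SS_dot_le (r • q.2) q.1
      rw [norm_smul, Real.norm_eq_abs] at h3
      have h4 := mul_le_mul_of_nonneg_left h3 (abs_nonneg lam)
      linarith
    have h5 : lam ^ 2 * s ^ 2 * (∑ e, SS m q.1 e ^ 2) / 2 ≤
        lam ^ 2 * s ^ 2 * (4 * Fintype.card κ) / 2 := by
      have := hSSsq q.1
      gcongr
    have h6 : 0 ≤ lam ^ 2 * rho ^ 2 := by positivity
    calc Real.exp (lam * (∑ e, (r • q.2) e * SS m q.1 e) - lam ^ 2 * rho ^ 2 +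
        lam ^ 2 * s ^ 2 * (∑ e, SS m q.1 e ^ 2) / 2) * |(LL m (lam * r) 1 q.2)⁻¹|
        ≤ Real.exp (|lam| * (2 * Fintype.card κ * |r|) * ‖q.2‖ +
          lam ^ 2 * s ^ 2 * (4 * Fintype.card κ) / 2) * (C * Real.exp (k * ‖q.2‖)) := by
          gcongr
          linarith
      _ = C * Real.exp (lam ^ 2 * s ^ 2 * (4 * Fintype.card κ) / 2) *
          Real.exp ((k + |lam| * (2 * Fintype.card κ * |r|)) * ‖q.2‖) := by
          rw [Real.exp_add, add_mul, Real.exp_add]
          ring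
  have hswap := integral_integral_swap (μ := (gI (Fin n)).prod (gI (Fin n))) (ν := gI κ)
    (f := fun p z => F (p, z)) hint
  have e0 : ∀ z : κ → ℝ, (∫ p, Real.exp (lam * (∑ e, (r • z) e * SS m p e) - lam ^ 2 * rho ^ 2 +
        lam ^ 2 * s ^ 2 * (∑ e, SS m p e ^ 2) / 2) ∂((gI (Fin n)).prod (gI (Fin n)))) *
        (LL m (lam * r) 1 z)⁻¹ = ∫ p, F (p, z) ∂((gI (Fin n)).prod (gI (Fin n))) := by
    intro z
    rw [← integral_mul_const]
  simp_rw [e0]
  rw [← hswap]
  refine integral_congr_ae ?_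
  filter_upwards [ae_pair_ne hn] with p hp
  have e1 : ∀ z : κ → ℝ, F (p, z) = Real.exp (-(lam ^ 2 * rho ^ 2) +
      lam ^ 2 * s ^ 2 * (∑ e, SS m p e ^ 2) / 2) *
        (Real.exp ((lam * r) * ∑ e, z e * SS m p e) * (LL m (lam * r) 1 z)⁻¹) := by
    intro z
    simp only [hF]
    rw [← mul_assoc, ← Real.exp_add]
    congr 2
    have : ∑ e, (r • z) e * SS m p e = r * ∑ e, z e * SS m p e := by
      rw [Finset.mul_sum]
      exact Finset.sum_congr rfl fun e _ => by simp only [Pi.smul_apply, smul_eq_mul]; ring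
    rw [this]
    ring
  simp_rw [e1]
  rw [integral_const_mul, hm.shift_inv, ← mul_assoc, ← Real.exp_add, hm.SS_sq hp.1 hp.2]
  congr 2
  linear_combination (lam ^ 2 * (1 + ov p)) * (-hrho)

/-- the mean of the likelihood -/
lemma Feat.mean_LL (hm : Feat m) (hn : 0 < n) (a : ℝ) : ∫ z, LL m a 1 z ∂(gI κ) = 1 := by
  unfold LL
  have hint : Integrable (fun q : (Fin n → ℝ) × (κ → ℝ) =>
      Real.exp (a * ∑ e, q.2 e * m (dir q.1) e - a ^ 2 * 1 ^ 2 / 2))
      ((gI (Fin n)).prod (gI κ)) := by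
    refine integrable_prod_exp ((hm.meas_joint a (a ^ 2 * 1 ^ 2 / 2)).comp measurable_swap)
      (C := 1) (k := |a| * Fintype.card κ) fun q => ?_
    rw [abs_of_pos (Real.exp_pos _), one_mul]
    refine Real.exp_le_exp.2 ?_
    have h1 : a * ∑ e, q.2 e * m (dir q.1) e ≤ |a| * (Fintype.card κ * ‖q.2‖) := by
      refine (le_abs_self _).trans ?_
      rw [abs_mul]
      gcongr
      exact hm.dot_le q.2 q.1
    have h2 : 0 ≤ a ^ 2 * 1 ^ 2 / 2 := by positivity
    linarith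
  have hswap := integral_integral_swap (μ := gI (Fin n)) (ν := gI κ)
    (f := fun h z => Real.exp (a * ∑ e, z e * m (dir h) e - a ^ 2 * 1 ^ 2 / 2)) hint
  rw [← hswap]
  have e : ∀ᵐ h ∂(gI (Fin n)), ∫ z, Real.exp (a * ∑ e, z e * m (dir h) e - a ^ 2 * 1 ^ 2 / 2)
      ∂(gI κ) = 1 := by
    filter_upwards [ae_ne_zero hn] with h h0
    have e1 : ∀ z : κ → ℝ, Real.exp (a * ∑ e, z e * m (dir h) e - a ^ 2 * 1 ^ 2 / 2) =
        Real.exp (-(a ^ 2 / 2)) * Real.exp (∑ e, (a * m (dir h) e) * z e) := by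
      intro z
      rw [← Real.exp_add]
      congr 1
      have : ∑ e, (a * m (dir h) e) * z e = a * ∑ e, z e * m (dir h) e := by
        rw [Finset.mul_sum]
        exact Finset.sum_congr rfl fun e _ => by ring
      rw [this]
      ring
    simp_rw [e1]
    rw [integral_const_mul, gI_exp_lin, ← Real.exp_add]
    have h2 : ∑ e, (a * m (dir h) e) ^ 2 = a ^ 2 := by
      have h3 : ∑ e, (a * m (dir h) e) ^ 2 = a ^ 2 * ∑ e, m (dir h) e * m (dir h) e := by
        rw [Finset.mul_sum]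
        exact Finset.sum_congr rfl fun e _ => by ring
      have h4 : ∑ i, dir h i * dir h i = 1 := by
        rw [← dir_unit h0]; exact Finset.sum_congr rfl fun i _ => by ring
      rw [h3, hm.gram, h4]
      ring
    rw [h2]
    simp
  rw [integral_congr_ae e]
  simp

/-- **The two-time second moment of the likelihood.** -/
theorem Feat.two_time_le (hm : Feat m) (hn : 0 < n) {lam rho r s : ℝ}
    (hrho : rho ^ 2 = r ^ 2 + s ^ 2) (hlt : 2 * (lam * rho) ^ 2 < n) :
    ∫ z, (∫ z', LL m lam rho (r • z + s • z') ^ 2 ∂(gI κ)) * (LL m lam r (r • z))⁻¹ ∂(gI κ) ≤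
      Real.sqrt ((n - 2 * (lam * r) ^ 2) / (n - 2 * (lam * rho) ^ 2)) := by
  have h1 := hm.two_time hn (lam := lam) hrho
  have h0 := hm.two_time hn (lam := lam) (rho := r) (r := r) (s := 0) (by ring)
  have e0 : ∫ z, (∫ z', LL m lam r (r • z + (0 : ℝ) • z') ^ 2 ∂(gI κ)) * (LL m lam r (r • z))⁻¹
      ∂(gI κ) = 1 := by
    have : ∀ z : κ → ℝ, (∫ z', LL m lam r (r • z + (0 : ℝ) • z') ^ 2 ∂(gI κ)) *
        (LL m lam r (r • z))⁻¹ = LL m (lam * r) 1 z := by
      intro z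
      have hp := hm.LL_pos lam r (r • z)
      simp only [zero_smul, add_zero, integral_const, probReal_univ, one_smul]
      rw [pow_two, mul_assoc, mul_inv_cancel₀ hp.ne', mul_one, LL_smul]
    simp_rw [this]
    exact hm.mean_LL hn _
  rw [e0] at h0
  set μ := (gI (Fin n)).prod (gI (Fin n)) with hμ
  set w : (Fin n → ℝ) × (Fin n → ℝ) → ℝ := fun p => Real.exp ((lam * r) ^ 2 * ov p) with hw
  set f : (Fin n → ℝ) × (Fin n → ℝ) → ℝ := fun p => Real.exp ((lam * s) ^ 2 * ov p) with hf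
  set G : (Fin n → ℝ) × (Fin n → ℝ) → ℝ := fun p => GG m (lam * r) (SS m p) with hG
  have ewf : ∀ p, w p * f p = Real.exp ((lam * rho) ^ 2 * ov p) := by
    intro p
    simp only [hw, hf]
    rw [← Real.exp_add]
    congr 1
    linear_combination (lam ^ 2 * ov p) * (-hrho)
  obtain ⟨C, hC⟩ := hm.GG_bdd (lam * r)
  have i1 : Integrable w μ := integrable_exp_ov _
  have i2 : Integrable (fun p => w p * f p) μ := by
    simp_rw [ewf]
    exact integrable_exp_ov _
  have i3 : Integrable (fun p => w p * G p) μ :=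
    i1.mul_bdd (hm.meas_GG (lam * r)).aestronglyMeasurable
      (c := C) (Filter.Eventually.of_forall fun p => by rw [Real.norm_eq_abs]; exact hC p)
  have i4 : Integrable (fun p => w p * f p * G p) μ :=
    i2.mul_bdd (hm.meas_GG (lam * r)).aestronglyMeasurable
      (c := C) (Filter.Eventually.of_forall fun p => by rw [Real.norm_eq_abs]; exact hC p)
  have key := cheb (μ := μ) (w := w) (f := f) (G := G) (S := {p | p.1 ≠ 0 ∧ p.2 ≠ 0})
    (fun p => (Real.exp_pos _).le) i1 i2 i3 i4 (ae_pair_ne hn) (by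
      have aux : ∀ x ∈ {p : (Fin n → ℝ) × (Fin n → ℝ) | p.1 ≠ 0 ∧ p.2 ≠ 0},
          ∀ y ∈ {p : (Fin n → ℝ) × (Fin n → ℝ) | p.1 ≠ 0 ∧ p.2 ≠ 0},
          ov x ≤ ov y → f x ≤ f y ∧ G y ≤ G x := by
        intro x hx y hy hxy
        have hun : ∀ h : Fin n → ℝ, h ≠ 0 → dt (dir h) (dir h) = 1 := by
          intro h h0
          rw [← dir_unit h0]
          unfold dt
          exact Finset.sum_congr rfl fun i _ => by ring
        refine ⟨?_, ?_⟩
        · simp only [hf]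
          refine Real.exp_le_exp.2 ?_
          gcongr
        · exact hm.GG_mono (lam * r) (hun _ hx.1) (hun _ hx.2) (hun _ hy.1) (hun _ hy.2) hxy
      intro x hx y hy
      rcases le_total (ov x) (ov y) with h | h
      · obtain ⟨h1, h2⟩ := aux x hx y hy h
        nlinarith [mul_nonneg (sub_nonneg.2 h1) (sub_nonneg.2 h2)]
      · obtain ⟨h1, h2⟩ := aux y hy x hx h
        nlinarith [mul_nonneg (sub_nonneg.2 h1) (sub_nonneg.2 h2)])
  have e3 : ∫ p, w p * G p ∂μ = 1 := h0.symm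
  have e4 : ∫ p, w p * f p * G p ∂μ = ∫ p, Real.exp ((lam * rho) ^ 2 * ov p) *
      GG m (lam * r) (SS m p) ∂μ := by
    refine integral_congr_ae (Filter.Eventually.of_forall fun p => ?_)
    simp only [ewf]
    rfl
  have e5 : ∫ p, w p * f p ∂μ = ∫ p, Real.exp ((lam * rho) ^ 2 * ov p) ∂μ := by
    refine integral_congr_ae (Filter.Eventually.of_forall fun p => ?_)
    simp only [ewf]
  rw [e3, e4, e5, mul_one] at key
  rw [h1]
  have hr2 : (lam * r) ^ 2 ≤ (lam * rho) ^ 2 := by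
    rw [mul_pow, mul_pow, hrho]
    nlinarith [sq_nonneg (lam * s), sq_nonneg lam]
  have hpsi := psi_ratio hn (sq_nonneg (lam * r)) hr2
  have hA : 0 < (n : ℝ) - 2 * (lam * rho) ^ 2 := by linarith
  have hB : 0 < (n : ℝ) - 2 * (lam * r) ^ 2 := by linarith
  have sA : 0 < Real.sqrt ((n : ℝ) - 2 * (lam * rho) ^ 2) := Real.sqrt_pos.2 hA
  have hw0 : 0 < ∫ p, w p ∂μ := psi_pos _
  rw [Real.sqrt_div hB.le, le_div_iff₀ sA]
  set I := ∫ p, Real.exp ((lam * rho) ^ 2 * ov p) * GG m (lam * r) (SS m p) ∂μ with hI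
  set P2 := ∫ p, Real.exp ((lam * rho) ^ 2 * ov p) ∂μ with hP2
  have k1 : I * (∫ p, w p ∂μ) * Real.sqrt ((n : ℝ) - 2 * (lam * rho) ^ 2) ≤
      P2 * Real.sqrt ((n : ℝ) - 2 * (lam * rho) ^ 2) := by gcongr
  have k2 : (I * Real.sqrt ((n : ℝ) - 2 * (lam * rho) ^ 2)) * (∫ p, w p ∂μ) ≤
      Real.sqrt ((n : ℝ) - 2 * (lam * r) ^ 2) * (∫ p, w p ∂μ) := by
    have : (∫ p, w p ∂μ) = ∫ p, Real.exp ((lam * r) ^ 2 * ov p) ∂μ := rfl
    rw [← this] at hpsi
    linarith
  exact le_of_mul_le_mul_right k2 hw0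

/-- the second moment of the likelihood -/
theorem Feat.second_le (hm : Feat m) (hn : 0 < n) {lam rho : ℝ}
    (hlt : 2 * (lam * rho) ^ 2 < n) :
    ∫ z, LL m lam rho (rho • z) ^ 2 ∂(gI κ) ≤ Real.sqrt (n / (n - 2 * (lam * rho) ^ 2)) := by
  have h := hm.two_time_le hn (lam := lam) (rho := rho) (r := 0) (s := rho) (by ring) hlt
  have e : ∀ z : κ → ℝ, LL m lam 0 ((0 : ℝ) • z) = 1 := by
    intro z
    unfold LL
    simp
  simp_rw [e] at h
  simpa using h

end Vale.Agent.P146.H310
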