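import Vale.Agent.P146.H379.FS4
import Vale.Agent.P146.H310.Sp5

set_option linter.all false

/-!
The two-time moments of the likelihood ratio, in the form used by the assembly `H379.FS4`.
-/

open MeasureTheory ProbabilityTheory

namespace Vale.Agent.P146.H310

open Vale.Agent.P157.Lv Vale.Agent.P146.H479 Vale.Agent.P146.H379.FS

variable {n : ℕ}

lemma feat_mm : Feat (mm (n := n)) where
  meas := measurable_pi_iff.2 fun e => by
    rcases e with p | i
    · simp only [mm_inl]
      fun_prop
    · simp only [mm_inr]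
      fun_prop
  gram := fun u v => sum_mm u v

lemma Lk_eq (lam ρ : ℝ) : Lk n lam ρ = LL (mm (n := n)) lam ρ := rfl

/-- **The two inputs on the likelihood ratio.** -/
theorem tt (hn : 0 < n) : TT n where
  two := fun lam ρ r s h hlt => by
    have e : 2 * (lam * ρ) ^ 2 < n := by
      have : 2 * (lam * ρ) ^ 2 = 2 * lam ^ 2 * ρ ^ 2 := by ring
      rw [this]
      exact hlt
    have h1 := (feat_mm (n := n)).two_time_le hn h e
    simp only [div_eq_mul_inv, Lk_eq] at h1 ⊢
    refine h1.trans (le_of_eq ?_)
    congr 1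
    ring
  one := fun lam ρ hlt => by
    have e : 2 * (lam * ρ) ^ 2 < n := by
      have : 2 * (lam * ρ) ^ 2 = 2 * lam ^ 2 * ρ ^ 2 := by ring
      rw [this]
      exact hlt
    have h1 := (feat_mm (n := n)).second_le hn e
    simp only [Lk_eq] at h1 ⊢
    refine h1.trans (le_of_eq ?_)
    congr 2
    ring
  pos := fun lam ρ z => (feat_mm (n := n)).LL_pos lam ρ z
  eg := fun lam ρ => (feat_mm (n := n)).LL_eg lam ρ
  egi := fun lam ρ => (feat_mm (n := n)).LLinv_eg lam ρ

end Vale.Agent.P146.H310
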