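import Vale.Agent.P146.H379.FS6
import Vale.Agent.P146.H310.TT
import Vale.Agent.P146.H310.Cor

set_option linter.all false

/-!
The predicate `FR` from the cost of the exponents which grow outwards (`TP`).
-/

open MeasureTheory ProbabilityTheory

namespace Vale.Agent.P146.H310

open Vale.Agent.P157 Vale.Agent.P157.Lv Vale.Agent.P157.Lv.Sy
open Vale.Agent.P146.H425 Vale.Agent.P146.H325 Vale.Agent.P146.H93 Vale.Agent.P146.H479
open Vale.Agent.P146.H379.FS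

variable {n : ℕ} {β x A D R C : ℝ}

/-- **`FR` from `TP`.** -/
theorem FR_of_TP (hD : D = β / 2 + Real.log (2 * R) / 2 + 1 / β + 2 / β ^ 2 + C)
    (hP : TP β R C n) (hn : 0 < n) (hβ : 0 < β) (hR : 1 < R) (hC : 0 ≤ C)
    (hx0 : (n : ℝ) ^ (-(1 / 6) : ℝ) ≤ x) (hx1 : x ≤ (n : ℝ) ^ (-(21 / 200) : ℝ)) (hA : 4 ≤ A)
    (hAx : A * x ^ 2 ≤ 1 / 2) : FR β D n x A :=
  fun K m b w c h1 h2 h3 h4 h5 h6 h7 h8 h9 h10 =>
    field_rem hD (tt hn) hP hn hβ hR hC hx0 hx1 hA hAx h1 h2 h3 h4 h5 h6 h7 h8 h9 h10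

end Vale.Agent.P146.H310
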