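import Vale.Agent.P146.H498.LNum

/-!
# P146, lower half: the constants of the L-side of the rows (helper310)

`cstL`: the relative error `eLN` (helper498) of the L-side is `≤ X` for a suitable order of the
constants: band width `q`, number of the points of the bundle `Nb`, probe `δ`, then the fluctuation
`γ` and the scale `u`.
-/

open MeasureTheory ProbabilityTheory Filter Topology Set

namespace Vale.Agent.P146.H310

open Vale.Agent.P146.H498.MRow (eLN)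

set_option linter.unusedSectionVars false

variable {n : ℕ} {β θ σ D0 X q q0 s u γ η δ E0 M Nl : ℝ}

/-- the first part: the two fluctuations -/
lemma cl_one (hβ : 0 < β) (hσ : 0 ≤ σ) (hs0 : 0 < s) (hs1 : s ≤ 1)
    (hs2 : β * s * (4 + 2 * σ) ≤ X / 8) (hNl : 0 < Nl) (hN1 : 5 * θ ^ 2 / Nl ≤ s ^ 2 / 2)
    (hη : 0 < η) (hγ : 0 ≤ γ) (hγ1 : γ ≤ s ^ 2 * η ^ 2 / 40) :
    β * (4 * (5 * θ ^ 2 / Nl + 20 * γ / η ^ 2) +
      2 * σ * √(5 * θ ^ 2 / Nl + 20 * γ / η ^ 2)) ≤ X / 8 := by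
  obtain ⟨V, hV⟩ : ∃ V, V = 5 * θ ^ 2 / Nl + 20 * γ / η ^ 2 := ⟨_, rfl⟩
  rw [← hV]
  have hV0 : 0 ≤ V := hV ▸ by positivity
  have hV1 : V ≤ s ^ 2 := by
    have h1 : 20 * γ / η ^ 2 ≤ s ^ 2 / 2 := by
      rw [div_le_iff₀ (by positivity)]
      linarith
    rw [hV]
    linarith
  have hV2 : √V ≤ s := by
    rw [← Real.sqrt_sq hs0.le]
    exact Real.sqrt_le_sqrt hV1
  have h1 : V ≤ s := hV1.trans (by nlinarith)
  have h2 : 2 * σ * √V ≤ 2 * σ * s := mul_le_mul_of_nonneg_left hV2 (by positivity)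
  have h3 : 4 * V + 2 * σ * √V ≤ s * (4 + 2 * σ) := by linarith
  have h4 := mul_le_mul_of_nonneg_left h3 hβ.le
  linarith

/-- the second part: the terms which are small with the scale -/
lemma cl_two (hβ : 0 < β) (hθ : 0 ≤ θ) (hδ : 0 < δ) (hE : 0 ≤ E0) (hn : (0 : ℝ) < n)
    (hu : 0 < u) (hu1 : u ≤ 1) (hnu : 1 ≤ (n : ℝ) * u ^ 6) :
    2 * β * θ / (n * u) + 3 * E0 * u / δ + 6 / (δ * (n * u ^ 5)) + 16 * E0 * u ^ 3 +
      32 / (n * u ^ 3) ≤ (2 * β * θ + 3 * E0 / δ + 6 / δ + 16 * E0 + 32) * u := by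
  have hu2 : u ^ 5 ≤ u := by
    have := pow_le_pow_of_le_one hu.le hu1 (show 1 ≤ 5 by norm_num)
    simpa using this
  have hu3 : u ^ 3 ≤ u := by
    have := pow_le_pow_of_le_one hu.le hu1 (show 1 ≤ 3 by norm_num)
    simpa using this
  have i1 : 1 / ((n : ℝ) * u) ≤ u ^ 5 := by
    rw [div_le_iff₀ (by positivity)]
    calc (1 : ℝ) ≤ n * u ^ 6 := hnu
      _ = u ^ 5 * (n * u) := by ring
  have i2 : 1 / ((n : ℝ) * u ^ 5) ≤ u := by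
    rw [div_le_iff₀ (by positivity)]
    calc (1 : ℝ) ≤ n * u ^ 6 := hnu
      _ = u * (n * u ^ 5) := by ring
  have i3 : 1 / ((n : ℝ) * u ^ 3) ≤ u ^ 3 := by
    rw [div_le_iff₀ (by positivity)]
    calc (1 : ℝ) ≤ n * u ^ 6 := hnu
      _ = u ^ 3 * (n * u ^ 3) := by ring
  have d1 : 2 * β * θ / (n * u) ≤ 2 * β * θ * u := by
    have e : 2 * β * θ / (n * u) = 2 * β * θ * (1 / ((n : ℝ) * u)) := by ring
    rw [e]
    exact mul_le_mul_of_nonneg_left (i1.trans hu2) (by positivity)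
  have d3 : 6 / (δ * (n * u ^ 5)) ≤ 6 / δ * u := by
    have e : 6 / (δ * (n * u ^ 5)) = 6 / δ * (1 / ((n : ℝ) * u ^ 5)) := by
      field_simp
    rw [e]
    exact mul_le_mul_of_nonneg_left i2 (by positivity)
  have d4 : 16 * E0 * u ^ 3 ≤ 16 * E0 * u := mul_le_mul_of_nonneg_left hu3 (by positivity)
  have d5 : 32 / ((n : ℝ) * u ^ 3) ≤ 32 * u := by
    have e : 32 / ((n : ℝ) * u ^ 3) = 32 * (1 / ((n : ℝ) * u ^ 3)) := by ring
    rw [e]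
    exact mul_le_mul_of_nonneg_left (i3.trans hu3) (by norm_num)
  have d2 : 3 * E0 * u / δ = 3 * E0 / δ * u := by ring
  rw [d2]
  linarith

/-- **The constants of the L-side.** -/
theorem cstL (hβ : 1 ≤ β) (hθ : 0 ≤ θ) (hσ : 0 ≤ σ) (hD : 0 ≤ D0) (hX : 0 < X) (hq0 : 0 < q0) :
    ∃ q : ℝ, ∃ Nb : ℕ, ∃ δ γ0 u0 : ℝ, 0 < q ∧ q ≤ q0 ∧ 2 ≤ Nb ∧ 0 < δ ∧ 0 < γ0 ∧ 0 < u0 ∧
      u0 ≤ 1 ∧ ∀ (n : ℕ) (u γ : ℝ), 0 < u → u ≤ u0 → 1 ≤ (n : ℝ) * u ^ 6 → 0 ≤ γ → γ ≤ γ0 →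
        eLN n β u ((Nb : ℝ) - 1) (q / Nb) γ θ σ q δ (8 * ((Nb : ℝ) + 2) * D0) ≤ X ∧
        δ * u ^ 2 ≤ 1 ∧ 128 * β ^ 4 * θ ^ 2 * u ≤ X * n := by
  have hβ0 : 0 < β := by linarith
  -- the size of the typical fluctuation
  obtain ⟨s, hs0, hs1, hs2⟩ : ∃ s : ℝ, 0 < s ∧ s ≤ 1 ∧ β * s * (4 + 2 * σ) ≤ X / 8 := by
    refine ⟨min 1 (X / (8 * β * (4 + 2 * σ))), by positivity, min_le_left _ _, ?_⟩
    have h1 : min 1 (X / (8 * β * (4 + 2 * σ))) ≤ X / (8 * β * (4 + 2 * σ)) := min_le_right _ _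
    rw [le_div_iff₀ (by positivity)] at h1
    linarith
  -- the band
  obtain ⟨q, hq1, hqq, hq2⟩ : ∃ q : ℝ, 0 < q ∧ q ≤ q0 ∧ β * (q * θ ^ 2) ≤ X / 8 := by
    refine ⟨min q0 (X / (8 * β * (θ ^ 2 + 1))), by positivity, min_le_left _ _, ?_⟩
    have h1 : min q0 (X / (8 * β * (θ ^ 2 + 1))) ≤ X / (8 * β * (θ ^ 2 + 1)) := min_le_right _ _
    have h0 : 0 < min q0 (X / (8 * β * (θ ^ 2 + 1))) := by positivity
    rw [le_div_iff₀ (by positivity)] at h1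
    have h2 : 0 ≤ min q0 (X / (8 * β * (θ ^ 2 + 1))) * β := by positivity
    linarith
  -- the number of the points
  obtain ⟨Nb, hNb2, hN1⟩ : ∃ Nb : ℕ, 2 ≤ Nb ∧ 5 * θ ^ 2 / ((Nb : ℝ) - 1) ≤ s ^ 2 / 2 := by
    obtain ⟨N, hN⟩ := exists_nat_ge (10 * θ ^ 2 / s ^ 2)
    refine ⟨N + 2, by omega, ?_⟩
    have hN0 : (0 : ℝ) ≤ N := Nat.cast_nonneg N
    push_cast
    rw [div_le_iff₀ (by linarith)]
    rw [div_le_iff₀ (by positivity)] at hN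
    nlinarith [sq_nonneg s]
  have hNbR : (2 : ℝ) ≤ Nb := by exact_mod_cast hNb2
  have hNl : (0 : ℝ) < (Nb : ℝ) - 1 := by linarith
  have hNb0 : (0 : ℝ) < Nb := by linarith
  obtain ⟨η, hη⟩ : ∃ η, η = q / (Nb : ℝ) := ⟨_, rfl⟩
  have hη0 : 0 < η := hη ▸ by positivity
  obtain ⟨δ, hδ0, hδ1⟩ : ∃ δ : ℝ, 0 < δ ∧ δ * θ ≤ X / 8 := by
    refine ⟨X / (8 * (θ + 1)), by positivity, ?_⟩
    rw [div_mul_eq_mul_div, div_le_iff₀ (by positivity)]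
    nlinarith
  obtain ⟨E0, hE⟩ : ∃ E0, E0 = 8 * ((Nb : ℝ) + 2) * D0 := ⟨_, rfl⟩
  have hE0 : 0 ≤ E0 := hE ▸ by positivity
  obtain ⟨M, hM⟩ : ∃ M, M = 2 * β * θ + 3 * E0 / δ + 6 / δ + 16 * E0 + 32 := ⟨_, rfl⟩
  have hM0 : 0 < M := hM ▸ by positivity
  refine ⟨q, Nb, δ, min (s ^ 2 * η ^ 2 / 40) (X * η / (32 * β)),
    min (min 1 (X / (2 * M))) (min (1 / (δ + 1)) (X / (128 * β ^ 4 * θ ^ 2 + 1))), hq1, hqq,
    hNb2, hδ0, by positivity, by positivity, (min_le_left _ _).trans (min_le_left _ _), ?_⟩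
  intro n u γ hu hu0 hnu hγ hγ0
  have hu1 : u ≤ 1 := hu0.trans ((min_le_left _ _).trans (min_le_left _ _))
  have huM : u ≤ X / (2 * M) := hu0.trans ((min_le_left _ _).trans (min_le_right _ _))
  have huδ : u ≤ 1 / (δ + 1) := hu0.trans ((min_le_right _ _).trans (min_le_left _ _))
  have huX : u ≤ X / (128 * β ^ 4 * θ ^ 2 + 1) :=
    hu0.trans ((min_le_right _ _).trans (min_le_right _ _))
  have hγ1 : γ ≤ s ^ 2 * η ^ 2 / 40 := hγ0.trans (min_le_left _ _)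
  have hγ2 : γ ≤ X * η / (32 * β) := hγ0.trans (min_le_right _ _)
  have hn0 : (0 : ℝ) < n := by
    by_contra h
    push Not at h
    have : (n : ℝ) * u ^ 6 ≤ 0 := mul_nonpos_of_nonpos_of_nonneg h (by positivity)
    linarith
  have hn1 : (1 : ℝ) ≤ n := by
    have : 0 < n := by exact_mod_cast hn0
    exact_mod_cast this
  refine ⟨?_, ?_, ?_⟩
  · rw [← hη, ← hE]
    unfold eLN
    have c1 := cl_one (θ := θ) hβ0 hσ hs0 hs1 hs2 hNl hN1 hη0 hγ hγ1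
    have c2 : β * (4 * γ / η) ≤ X / 8 := by
      rw [le_div_iff₀ (by positivity)] at hγ2
      rw [mul_div_assoc', div_le_iff₀ hη0]
      linarith
    have c3 := cl_two (n := n) hβ0 hθ hδ0 hE0 hn0 hu hu1 hnu
    rw [← hM] at c3
    have d6 : M * u ≤ X / 2 := by
      rw [le_div_iff₀ (by positivity)] at huM
      linarith
    obtain ⟨V, hV⟩ : ∃ V, V = 5 * θ ^ 2 / ((Nb : ℝ) - 1) + 20 * γ / η ^ 2 := ⟨_, rfl⟩
    rw [← hV] at c1 ⊢
    have e8 : β * (4 * V + 4 * γ / η + q * θ ^ 2 + 2 * σ * √V) =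
        β * (4 * V + 2 * σ * √V) + β * (4 * γ / η) + β * (q * θ ^ 2) := by ring
    rw [e8]
    linarith
  · have h1 : u ^ 2 ≤ u := by nlinarith
    have h2 : δ * u ^ 2 ≤ δ * u := mul_le_mul_of_nonneg_left h1 hδ0.le
    have h3 : u * (δ + 1) ≤ 1 := by rwa [le_div_iff₀ (by positivity)] at huδ
    linarith
  · rw [le_div_iff₀ (by positivity)] at huX
    have h1 : 128 * β ^ 4 * θ ^ 2 * u ≤ X := by linarith
    have h2 : X * 1 ≤ X * n := mul_le_mul_of_nonneg_left hn1 hX.le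
    linarith

end Vale.Agent.P146.H310
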