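import Vale.Agent.P146.H425.Gauss

set_option linter.all false

/-!
Isometries from Gram data, rotation invariance of `gI`, and the exponential moment of the squared
overlap of a Gaussian direction with a fixed unit vector.
-/

open MeasureTheory ProbabilityTheory
open scoped InnerProductSpace

namespace Vale.Agent.P146.H310

open Vale.Agent.P157.Lv

/-! ### isometries -/

section gram

variable {V : Type*} [NormedAddCommGroup V] [InnerProductSpace ℝ V] [FiniteDimensional ℝ V]

/-- Two families with the same Gram matrix are exchanged by an isometry. -/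
lemma gram_isometry {ι : Type*} (x y : ι → V) (h : ∀ i j, ⟪x i, x j⟫_ℝ = ⟪y i, y j⟫_ℝ) :
    ∃ T : V ≃ₗᵢ[ℝ] V, ∀ i, T (x i) = y i := by
  classical
  set F : (ι →₀ ℝ) →ₗ[ℝ] V := Finsupp.linearCombination ℝ x with hF
  set F' : (ι →₀ ℝ) →ₗ[ℝ] V := Finsupp.linearCombination ℝ y with hF'
  have hinner : ∀ c : ι →₀ ℝ, ⟪F c, F c⟫_ℝ = ⟪F' c, F' c⟫_ℝ := by
    intro c
    rw [hF, hF']
    simp only [Finsupp.linearCombination_apply, Finsupp.sum, sum_inner, inner_sum,
      real_inner_smul_left, real_inner_smul_right, h]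
  have hnorm : ∀ c : ι →₀ ℝ, ‖F' c‖ = ‖F c‖ := by
    intro c
    rw [← sq_eq_sq₀ (norm_nonneg _) (norm_nonneg _), ← real_inner_self_eq_norm_sq,
      ← real_inner_self_eq_norm_sq, hinner]
  obtain ⟨g, hg⟩ := LinearMap.exists_rightInverse_of_surjective F.rangeRestrict
    (LinearMap.range_rangeRestrict F)
  have hg' : ∀ s : LinearMap.range F, F (g s) = s := by
    intro s
    have := LinearMap.congr_fun hg s
    exact congrArg Subtype.val this
  let T0 : LinearMap.range F →ₗᵢ[ℝ] V :=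
    { toLinearMap := F' ∘ₗ g
      norm_map' := by
        intro s
        show ‖F' (g s)‖ = ‖s‖
        rw [hnorm, hg']
        rfl }
  have hT0 : ∀ c : ι →₀ ℝ, T0 ⟨F c, LinearMap.mem_range_self F c⟩ = F' c := by
    intro c
    show F' (g ⟨F c, LinearMap.mem_range_self F c⟩) = F' c
    have h1 : F' (g ⟨F c, LinearMap.mem_range_self F c⟩ - c) = 0 := by
      rw [← norm_eq_zero, hnorm, norm_eq_zero, map_sub, hg']
      simp
    rw [map_sub] at h1
    exact sub_eq_zero.1 h1
  refine ⟨T0.extend.toLinearIsometryEquiv rfl, fun i => ?_⟩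
  have h1 : F (Finsupp.single i 1) = x i := by
    rw [hF, Finsupp.linearCombination_single, one_smul]
  have h2 : F' (Finsupp.single i 1) = y i := by
    rw [hF', Finsupp.linearCombination_single, one_smul]
  have h3 := T0.extend_apply ⟨F (Finsupp.single i 1), LinearMap.mem_range_self F _⟩
  rw [hT0, h2] at h3
  simp only [LinearIsometry.coe_toLinearIsometryEquiv]
  rw [← h3]
  simp only [h1]

end gram

/-! ### rotation invariance of `gI` -/

section rot

variable {κ : Type} [Fintype κ]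

/-- A linear isometry of the Euclidean space, as a map of `κ → ℝ`. -/
noncomputable def act (T : EuclideanSpace ℝ κ ≃ₗᵢ[ℝ] EuclideanSpace ℝ κ) (z : κ → ℝ) : κ → ℝ :=
  WithLp.ofLp (T (WithLp.toLp 2 z))

lemma continuous_act (T : EuclideanSpace ℝ κ ≃ₗᵢ[ℝ] EuclideanSpace ℝ κ) : Continuous (act T) := by
  unfold act
  fun_prop

lemma mp_act (T : EuclideanSpace ℝ κ ≃ₗᵢ[ℝ] EuclideanSpace ℝ κ) :
    MeasurePreserving (act T) (gI κ) (gI κ) := by
  refine ⟨(continuous_act T).measurable, ?_⟩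
  have h1 : (gI κ).map (WithLp.toLp 2) = stdGaussian (EuclideanSpace ℝ κ) :=
    map_pi_eq_stdGaussian
  have h2 : (stdGaussian (EuclideanSpace ℝ κ)).map T = stdGaussian (EuclideanSpace ℝ κ) :=
    stdGaussian_map T
  have h3 : (stdGaussian (EuclideanSpace ℝ κ)).map (WithLp.ofLp (p := 2)) = gI κ := by
    rw [← h1, Measure.map_map (by fun_prop) (by fun_prop)]
    have : (WithLp.ofLp (p := 2)) ∘ (WithLp.toLp 2) = (id : (κ → ℝ) → (κ → ℝ)) := rfl
    rw [this, Measure.map_id]
  have h4 : act T = (WithLp.ofLp (p := 2)) ∘ T ∘ (WithLp.toLp 2) := rfl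
  rw [h4, ← Measure.map_map (by fun_prop) (by fun_prop), ← Measure.map_map (by fun_prop)
    (by fun_prop), h1, h2, h3]

lemma inner_toLp (x y : κ → ℝ) :
    ⟪(WithLp.toLp 2 x : EuclideanSpace ℝ κ), WithLp.toLp 2 y⟫_ℝ = ∑ e, x e * y e := by
  rw [PiLp.inner_apply]
  refine Finset.sum_congr rfl fun e _ => ?_
  simp [mul_comm]

lemma act_dot (T : EuclideanSpace ℝ κ ≃ₗᵢ[ℝ] EuclideanSpace ℝ κ) (x y : κ → ℝ) :
    ∑ e, act T x e * act T y e = ∑ e, x e * y e := by
  have h := T.inner_map_map (WithLp.toLp 2 x) (WithLp.toLp 2 y)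
  rw [inner_toLp, inner_toLp] at h
  exact h

lemma act_add (T : EuclideanSpace ℝ κ ≃ₗᵢ[ℝ] EuclideanSpace ℝ κ) (x y : κ → ℝ) :
    act T (x + y) = act T x + act T y := by
  unfold act
  rw [WithLp.toLp_add, map_add, WithLp.ofLp_add]

lemma act_smul (T : EuclideanSpace ℝ κ ≃ₗᵢ[ℝ] EuclideanSpace ℝ κ) (c : ℝ) (x : κ → ℝ) :
    act T (c • x) = c • act T x := by
  unfold act
  rw [WithLp.toLp_smul, map_smul, WithLp.ofLp_smul]

/-- Gram data give an isometry, in coordinates. -/
lemma exists_act {ι : Type*} (x y : ι → κ → ℝ)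
    (h : ∀ i j, ∑ e, x i e * x j e = ∑ e, y i e * y j e) :
    ∃ T : EuclideanSpace ℝ κ ≃ₗᵢ[ℝ] EuclideanSpace ℝ κ, ∀ i, act T (x i) = y i := by
  obtain ⟨T, hT⟩ := gram_isometry (V := EuclideanSpace ℝ κ) (fun i => WithLp.toLp 2 (x i))
    (fun i => WithLp.toLp 2 (y i)) (fun i j => by rw [inner_toLp, inner_toLp, h])
  refine ⟨T, fun i => ?_⟩
  unfold act
  rw [hT]

end rot

end Vale.Agent.P146.H310
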