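import Vale.Agent.P146.H310.Sp1

set_option linter.all false

/-!
The exponential moment of the squared overlap of a Gaussian direction with a fixed unit vector:
`(n - 2 l) psi' (l) <= psi (l)`, by two Gaussian integrations by parts.
-/

open MeasureTheory ProbabilityTheory

namespace Vale.Agent.P146.H310

open Vale.Agent.P157.Lv

variable {n : ℕ}

/-- squared Euclidean norm -/
noncomputable def sqn (h : Fin n → ℝ) : ℝ := ∑ i, h i ^ 2

/-- direction of a vector -/
noncomputable def dir (h : Fin n → ℝ) : Fin n → ℝ := fun i => h i / Real.sqrt (∑ j, h j ^ 2)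

/-- inner product -/
noncomputable def dt (v h : Fin n → ℝ) : ℝ := ∑ i, v i * h i

/-- regularised squared overlap -/
noncomputable def cc (v : Fin n → ℝ) (δ : ℝ) (h : Fin n → ℝ) : ℝ := dt v h ^ 2 * (sqn h + δ)⁻¹

/-- its partial derivatives -/
noncomputable def cc' (v : Fin n → ℝ) (δ : ℝ) (i : Fin n) (h : Fin n → ℝ) : ℝ :=
  2 * dt v h * v i * (sqn h + δ)⁻¹ - dt v h ^ 2 * (2 * h i * ((sqn h + δ)⁻¹) ^ 2)

lemma sqn_nonneg (h : Fin n → ℝ) : 0 ≤ sqn h := Finset.sum_nonneg fun i _ => sq_nonneg _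

lemma dt_sq_le (v h : Fin n → ℝ) (hv : ∑ i, v i ^ 2 = 1) : dt v h ^ 2 ≤ sqn h := by
  have := Finset.sum_mul_sq_le_sq_mul_sq Finset.univ v h
  rw [hv, one_mul] at this
  exact this

lemma eg_dt (v : Fin n → ℝ) : EG (dt v) := by
  unfold dt
  exact EG.sum _ fun i _ => (EG.coord i).const_mul (v i)

lemma eg_sqn : EG (sqn (n := n)) := by
  unfold sqn
  exact EG.sum _ fun i _ => (EG.coord i).pow 2

lemma eg_inv {δ : ℝ} (hδ : 0 < δ) : EG fun h : Fin n → ℝ => (sqn h + δ)⁻¹ := by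
  refine EG.of_bdd ((eg_sqn.meas.add_const δ).inv) (C := δ⁻¹) fun h => ?_
  have h0 := sqn_nonneg h
  rw [abs_of_nonneg (by positivity)]
  exact inv_anti₀ hδ (by linarith)

lemma eg_cc (v : Fin n → ℝ) {δ : ℝ} (hδ : 0 < δ) : EG (cc v δ) :=
  ((eg_dt v).pow 2).mul (eg_inv hδ)

lemma eg_cc' (v : Fin n → ℝ) {δ : ℝ} (hδ : 0 < δ) (i : Fin n) : EG (cc' v δ i) := by
  unfold cc'
  refine EG.sub ?_ ?_
  · have := (((eg_dt v).const_mul 2).mul (EG.const (v i))).mul (eg_inv hδ)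
    exact this
  · exact ((eg_dt v).pow 2).mul (((EG.coord i).const_mul 2).mul ((eg_inv hδ).pow 2))

lemma cc_nonneg (v : Fin n → ℝ) {δ : ℝ} (hδ : 0 < δ) (h : Fin n → ℝ) : 0 ≤ cc v δ h := by
  unfold cc
  have h0 := sqn_nonneg h
  positivity

lemma cc_le_one (v : Fin n → ℝ) (hv : ∑ i, v i ^ 2 = 1) {δ : ℝ} (hδ : 0 < δ) (h : Fin n → ℝ) :
    cc v δ h ≤ 1 := by
  unfold cc
  have h0 := sqn_nonneg h
  have h1 := dt_sq_le v h hv
  rw [← div_eq_mul_inv, div_le_one (by positivity)]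
  linarith

lemma eg_expcc (v : Fin n → ℝ) (hv : ∑ i, v i ^ 2 = 1) {δ : ℝ} (hδ : 0 < δ) (l : ℝ) :
    EG fun h => Real.exp (l * cc v δ h) := by
  refine EG.of_bdd ((eg_cc v hδ).meas.const_mul l).exp (C := Real.exp |l|) fun h => ?_
  rw [abs_of_pos (Real.exp_pos _)]
  refine Real.exp_le_exp.2 ?_
  have h0 := cc_nonneg v hδ h
  have h1 := cc_le_one v hv hδ h
  calc l * cc v δ h ≤ |l| * cc v δ h := by gcongr; exact le_abs_self l
    _ ≤ |l| * 1 := by gcongr
    _ = |l| := mul_one _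

lemma pd_dt (v : Fin n → ℝ) (i : Fin n) : PD i (dt v) (fun _ => v i) := by
  have h : PD i (dt v) (fun _ => ∑ j, v j * (if j = i then 1 else 0)) := by
    unfold dt
    exact PD.sum _ fun j _ => (PD.coord j).const_mul (v j)
  refine h.congr fun y => ?_
  simp

lemma pd_sqn (i : Fin n) : PD i (sqn (n := n)) (fun h => 2 * h i) := by
  have h : PD i (sqn (n := n)) (fun h => ∑ j, (2 * h j) * (if j = i then 1 else 0)) := by
    unfold sqn
    refine PD.sum _ fun j _ => ?_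
    exact (PD.coord (e := i) j).comp (g := fun x => x ^ 2) (g' := fun x => 2 * x) fun x => by
      simpa using hasDerivAt_pow 2 x
  refine h.congr fun y => ?_
  simp

lemma pd_cc (v : Fin n → ℝ) {δ : ℝ} (hδ : 0 < δ) (i : Fin n) : PD i (cc v δ) (cc' v δ i) := by
  intro y x
  have h1 := pd_dt v i y x
  have h2 := pd_sqn i y x
  have h0 : sqn (Function.update y i x) + δ ≠ 0 := by
    have := sqn_nonneg (Function.update y i x)
    positivity
  have h3 := (h1.pow 2).mul ((h2.add_const δ).inv h0)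
  refine h3.congr_deriv ?_
  unfold cc'
  simp only [Nat.cast_ofNat, Nat.add_one_sub_one, pow_one, Pi.inv_apply, Pi.pow_apply]
  field_simp
  ring

/-- first integration by parts -/
lemma stein_dir (v : Fin n → ℝ) (hv : ∑ i, v i ^ 2 = 1) {δ : ℝ} (hδ : 0 < δ) (l : ℝ) :
    ∫ h, dt v h ^ 2 * Real.exp (l * cc v δ h) ∂(gI (Fin n)) =
      ∫ h, Real.exp (l * cc v δ h) * (1 + 2 * l * (cc v δ h * (1 - cc v δ h))) ∂(gI (Fin n)) := by
  have hexp := eg_expcc v hv hδ l
  have hst : ∀ i, ∫ h, h i * (dt v h * Real.exp (l * cc v δ h)) ∂(gI (Fin n)) =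
      ∫ h, (v i * Real.exp (l * cc v δ h) +
        dt v h * (Real.exp (l * cc v δ h) * (l * cc' v δ i h))) ∂(gI (Fin n)) := by
    intro i
    have hpd : PD i (fun h => dt v h * Real.exp (l * cc v δ h)) (fun h =>
        v i * Real.exp (l * cc v δ h) +
        dt v h * (Real.exp (l * cc v δ h) * (l * cc' v δ i h))) :=
      (pd_dt v i).mul (((pd_cc v hδ i).const_mul l).exp)
    exact hpd.stein ((eg_dt v).mul hexp)
      ((hexp.const_mul _).add ((eg_dt v).mul (hexp.mul ((eg_cc' v hδ i).const_mul l))))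
  have hL : ∫ h, dt v h ^ 2 * Real.exp (l * cc v δ h) ∂(gI (Fin n)) =
      ∑ i, v i * ∫ h, h i * (dt v h * Real.exp (l * cc v δ h)) ∂(gI (Fin n)) := by
    have e1 : ∀ h : Fin n → ℝ, dt v h ^ 2 * Real.exp (l * cc v δ h) =
        ∑ i, v i * (h i * (dt v h * Real.exp (l * cc v δ h))) := by
      intro h
      have : dt v h ^ 2 * Real.exp (l * cc v δ h) =
        (∑ i, v i * h i) * (dt v h * Real.exp (l * cc v δ h)) := by unfold dt; ring
      rw [this, Finset.sum_mul]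
      exact Finset.sum_congr rfl fun i _ => by ring
    simp_rw [e1]
    rw [integral_finset_sum]
    · exact Finset.sum_congr rfl fun i _ => integral_const_mul _ _
    · intro i _
      exact (((EG.coord i).mul ((eg_dt v).mul hexp)).const_mul (v i)).integrable
  rw [hL]
  simp_rw [hst]
  simp_rw [← integral_const_mul]
  rw [← integral_finset_sum]
  · refine integral_congr_ae (Filter.Eventually.of_forall fun h => ?_)
    simp only
    have h0 : sqn h + δ ≠ 0 := by
      have := sqn_nonneg h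
      positivity
    have e2 : ∑ i, v i * (v i * Real.exp (l * cc v δ h) +
        dt v h * (Real.exp (l * cc v δ h) * (l * cc' v δ i h))) =
        (∑ i, v i ^ 2) * Real.exp (l * cc v δ h) +
        dt v h * Real.exp (l * cc v δ h) * l * ((∑ i, v i ^ 2) * (2 * dt v h * (sqn h + δ)⁻¹) -
          (∑ i, v i * h i) * (2 * dt v h ^ 2 * ((sqn h + δ)⁻¹) ^ 2)) := by
      simp only [Finset.sum_mul, Finset.mul_sum, ← Finset.sum_sub_distrib,
        ← Finset.sum_add_distrib]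
      refine Finset.sum_congr rfl fun i _ => ?_
      unfold cc'
      ring
    rw [e2, hv]
    change 1 * Real.exp (l * cc v δ h) + dt v h * Real.exp (l * cc v δ h) * l *
      (1 * (2 * dt v h * (sqn h + δ)⁻¹) - dt v h * (2 * dt v h ^ 2 * ((sqn h + δ)⁻¹) ^ 2)) = _
    have e3 : dt v h * Real.exp (l * cc v δ h) * l *
      (1 * (2 * dt v h * (sqn h + δ)⁻¹) - dt v h * (2 * dt v h ^ 2 * ((sqn h + δ)⁻¹) ^ 2)) =
      Real.exp (l * cc v δ h) * (2 * l * (cc v δ h * (1 - cc v δ h))) := by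
      unfold cc
      ring
    rw [e3]
    ring
  · intro i _
    exact (((hexp.const_mul _).add
      ((eg_dt v).mul (hexp.mul ((eg_cc' v hδ i).const_mul l)))).const_mul (v i)).integrable

/-- second integration by parts -/
lemma stein_rad (v : Fin n → ℝ) (hv : ∑ i, v i ^ 2 = 1) {δ : ℝ} (hδ : 0 < δ) {l : ℝ}
    (hl : 0 ≤ l) :
    n * ∫ h, cc v δ h * Real.exp (l * cc v δ h) ∂(gI (Fin n)) ≤
      ∫ h, sqn h * (cc v δ h * Real.exp (l * cc v δ h)) ∂(gI (Fin n)) := by
  have hexp := eg_expcc v hv hδ l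
  have hcc := eg_cc v hδ
  set Φ : (Fin n → ℝ) → ℝ := fun h => cc v δ h * Real.exp (l * cc v δ h) with hΦ
  have hΦe : EG Φ := hcc.mul hexp
  set Φ' : Fin n → (Fin n → ℝ) → ℝ := fun i h => cc' v δ i h * Real.exp (l * cc v δ h) +
    cc v δ h * (Real.exp (l * cc v δ h) * (l * cc' v δ i h)) with hΦ'
  have hΦ'e : ∀ i, EG (Φ' i) := fun i => ((eg_cc' v hδ i).mul hexp).add
    (hcc.mul (hexp.mul ((eg_cc' v hδ i).const_mul l)))
  have hst : ∀ i, ∫ h, h i * (h i * Φ h) ∂(gI (Fin n)) =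
      ∫ h, (1 * Φ h + h i * Φ' i h) ∂(gI (Fin n)) := by
    intro i
    have hpd : PD i (fun h => h i * Φ h) (fun h => 1 * Φ h + h i * Φ' i h) := by
      have h1 : PD i (fun h : Fin n → ℝ => h i) (fun _ => 1) := by
        refine (PD.coord (e := i) i).congr fun y => ?_
        simp
      exact h1.mul ((pd_cc v hδ i).mul (((pd_cc v hδ i).const_mul l).exp))
    exact hpd.stein ((EG.coord i).mul hΦe)
      ((hΦe.const_mul 1).add ((EG.coord i).mul (hΦ'e i)))
  have hL : ∫ h, sqn h * Φ h ∂(gI (Fin n)) =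
      ∑ i, ∫ h, h i * (h i * Φ h) ∂(gI (Fin n)) := by
    rw [← integral_finset_sum]
    · refine integral_congr_ae (Filter.Eventually.of_forall fun h => ?_)
      simp only [sqn, Finset.sum_mul]
      exact Finset.sum_congr rfl fun i _ => by ring
    · intro i _
      exact ((EG.coord i).mul ((EG.coord i).mul hΦe)).integrable
  have hR : ∑ i, ∫ h, (1 * Φ h + h i * Φ' i h) ∂(gI (Fin n)) =
      n * ∫ h, Φ h ∂(gI (Fin n)) + ∫ h, ∑ i, h i * Φ' i h ∂(gI (Fin n)) := by
    rw [integral_finset_sum]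
    · have : ∀ i : Fin n, ∫ h, (1 * Φ h + h i * Φ' i h) ∂(gI (Fin n)) =
          ∫ h, Φ h ∂(gI (Fin n)) + ∫ h, h i * Φ' i h ∂(gI (Fin n)) := by
        intro i
        simp only [one_mul]
        exact integral_add hΦe.integrable ((EG.coord i).mul (hΦ'e i)).integrable
      simp_rw [this, Finset.sum_add_distrib]
      simp
    · intro i _
      exact ((EG.coord i).mul (hΦ'e i)).integrable
  rw [hL]
  simp_rw [hst]
  rw [hR]
  have hpos : 0 ≤ ∫ h, ∑ i, h i * Φ' i h ∂(gI (Fin n)) := by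
    refine integral_nonneg fun h => ?_
    have h0 : 0 < sqn h + δ := by
      have := sqn_nonneg h
      positivity
    have e1 : ∑ i, h i * Φ' i h = Real.exp (l * cc v δ h) * (1 + l * cc v δ h) *
        (2 * dt v h * (sqn h + δ)⁻¹ * (∑ i, v i * h i) -
          dt v h ^ 2 * (2 * ((sqn h + δ)⁻¹) ^ 2) * (∑ i, h i ^ 2)) := by
      simp only [Finset.mul_sum, ← Finset.sum_sub_distrib]
      refine Finset.sum_congr rfl fun i _ => ?_
      simp only [hΦ', cc']
      ring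
    have e2 : (2 * dt v h * (sqn h + δ)⁻¹ * (∑ i, v i * h i) -
          dt v h ^ 2 * (2 * ((sqn h + δ)⁻¹) ^ 2) * (∑ i, h i ^ 2)) =
        2 * dt v h ^ 2 * δ * ((sqn h + δ)⁻¹) ^ 2 := by
      change (2 * dt v h * (sqn h + δ)⁻¹ * dt v h -
          dt v h ^ 2 * (2 * ((sqn h + δ)⁻¹) ^ 2) * sqn h) = _
      field_simp
      ring
    rw [e1, e2]
    have := cc_nonneg v hδ h
    positivity
  linarith

/-- `(n - 2 l) psi' <= psi` -/
lemma psi_ineq (v : Fin n → ℝ) (hv : ∑ i, v i ^ 2 = 1) {δ : ℝ} (hδ : 0 < δ) {l : ℝ}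
    (hl : 0 ≤ l) :
    (n - 2 * l) * ∫ h, cc v δ h * Real.exp (l * cc v δ h) ∂(gI (Fin n)) ≤
      ∫ h, Real.exp (l * cc v δ h) ∂(gI (Fin n)) := by
  have hexp := eg_expcc v hv hδ l
  have hcc := eg_cc v hδ
  have h1 := stein_rad v hv hδ hl
  have h2 := stein_dir v hv hδ l
  have h3 : ∫ h, sqn h * (cc v δ h * Real.exp (l * cc v δ h)) ∂(gI (Fin n)) ≤
      ∫ h, dt v h ^ 2 * Real.exp (l * cc v δ h) ∂(gI (Fin n)) := by
    refine integral_mono (eg_sqn.mul (hcc.mul hexp)).integrable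
      (((eg_dt v).pow 2).mul hexp).integrable fun h => ?_
    simp only
    rw [← mul_assoc]
    gcongr
    have h0 := sqn_nonneg h
    unfold cc
    have : sqn h * (dt v h ^ 2 * (sqn h + δ)⁻¹) = dt v h ^ 2 * (sqn h / (sqn h + δ)) := by
      rw [div_eq_mul_inv]; ring
    rw [this]
    have h4 : sqn h / (sqn h + δ) ≤ 1 := by
      rw [div_le_one (by positivity)]; linarith
    nlinarith [sq_nonneg (dt v h)]
  have h5 : ∫ h, Real.exp (l * cc v δ h) * (1 + 2 * l * (cc v δ h * (1 - cc v δ h)))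
      ∂(gI (Fin n)) ≤ ∫ h, (Real.exp (l * cc v δ h) +
        2 * l * (cc v δ h * Real.exp (l * cc v δ h))) ∂(gI (Fin n)) := by
    refine integral_mono ?_ ?_ fun h => ?_
    · exact (hexp.mul ((EG.const 1).add ((hcc.mul ((EG.const 1).sub hcc)).const_mul
        (2 * l)))).integrable
    · exact (hexp.add ((hcc.mul hexp).const_mul (2 * l))).integrable
    · simp only
      have hc0 := cc_nonneg v hδ h
      have he := Real.exp_pos (l * cc v δ h)
      nlinarith [mul_nonneg (mul_nonneg hl he.le) (mul_nonneg hc0 hc0)]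
  rw [integral_add hexp.integrable ((hcc.mul hexp).const_mul (2 * l)).integrable,
    integral_const_mul] at h5
  nlinarith

/-! ### the ratio -/

lemma integrable_expcc (v : Fin n → ℝ) (hv : ∑ i, v i ^ 2 = 1) {δ : ℝ} (hδ : 0 < δ) (l : ℝ) :
    Integrable (fun h => Real.exp (l * cc v δ h)) (gI (Fin n)) := (eg_expcc v hv hδ l).integrable

lemma hasDerivAt_psi (v : Fin n → ℝ) (hv : ∑ i, v i ^ 2 = 1) {δ : ℝ} (hδ : 0 < δ) (l : ℝ) :
    HasDerivAt (fun l => ∫ h, Real.exp (l * cc v δ h) ∂(gI (Fin n)))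
      (∫ h, cc v δ h * Real.exp (l * cc v δ h) ∂(gI (Fin n))) l := by
  have hset : integrableExpSet (cc v δ) (gI (Fin n)) = Set.univ := by
    ext t
    simp only [integrableExpSet, Set.mem_setOf_eq, Set.mem_univ, iff_true]
    exact integrable_expcc v hv hδ t
  have := hasDerivAt_mgf (X := cc v δ) (μ := gI (Fin n)) (t := l) (by rw [hset]; simp)
  exact this

lemma psi_antitone (v : Fin n → ℝ) (hv : ∑ i, v i ^ 2 = 1) {δ : ℝ} (hδ : 0 < δ) {l1 l2 : ℝ}
    (h1 : 0 ≤ l1) (h12 : l1 ≤ l2) :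
    (∫ h, Real.exp (l2 * cc v δ h) ∂(gI (Fin n))) ^ 2 * (n - 2 * l2) ≤
      (∫ h, Real.exp (l1 * cc v δ h) ∂(gI (Fin n))) ^ 2 * (n - 2 * l1) := by
  set ψ : ℝ → ℝ := fun l => ∫ h, Real.exp (l * cc v δ h) ∂(gI (Fin n)) with hψ
  set ψ' : ℝ → ℝ := fun l => ∫ h, cc v δ h * Real.exp (l * cc v δ h) ∂(gI (Fin n)) with hψ'
  have hd : ∀ l, HasDerivAt ψ (ψ' l) l := fun l => hasDerivAt_psi v hv hδ l
  have hd2 : ∀ l, HasDerivAt (fun l => ψ l ^ 2 * (n - 2 * l))
      (2 * ψ l * ψ' l * (n - 2 * l) + ψ l ^ 2 * (-2)) l := by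
    intro l
    have h := ((hd l).pow 2).mul (((hasDerivAt_id l).const_mul 2).const_sub (n : ℝ))
    refine h.congr_deriv ?_
    simp
  have hpos : ∀ l, 0 < ψ l := fun l => integral_exp_pos (integrable_expcc v hv hδ l)
  have hanti : AntitoneOn (fun l => ψ l ^ 2 * (n - 2 * l)) (Set.Ici 0) := by
    refine antitoneOn_of_deriv_nonpos (convex_Ici 0)
      (fun l _ => (hd2 l).continuousAt.continuousWithinAt)
      (fun l _ => (hd2 l).differentiableAt.differentiableWithinAt) fun l hl => ?_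
    rw [interior_Ici] at hl
    rw [(hd2 l).deriv]
    have := psi_ineq v hv hδ (le_of_lt hl)
    have hp := hpos l
    change (n - 2 * l) * ψ' l ≤ ψ l at this
    nlinarith
  exact hanti (Set.mem_Ici.2 h1) (Set.mem_Ici.2 (h1.trans h12)) h12

lemma sqn_eq_zero {h : Fin n → ℝ} (h0 : sqn h = 0) (v : Fin n → ℝ) : dt v h = 0 := by
  have h1 : ∀ i, h i = 0 := by
    intro i
    have := (Finset.sum_eq_zero_iff_of_nonneg (fun i _ => sq_nonneg (h i))).1 h0 i
      (Finset.mem_univ i)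
    exact pow_eq_zero_iff (two_ne_zero) |>.1 this
  unfold dt
  exact Finset.sum_eq_zero fun i _ => by rw [h1 i, mul_zero]

lemma dt_dir_sq (v h : Fin n → ℝ) : dt v (dir h) ^ 2 = dt v h ^ 2 * (sqn h)⁻¹ := by
  have h1 : dt v (dir h) = dt v h / Real.sqrt (sqn h) := by
    unfold dt dir sqn
    rw [Finset.sum_div]
    exact Finset.sum_congr rfl fun i _ => by ring
  rw [h1, div_pow, Real.sq_sqrt (sqn_nonneg h), div_eq_mul_inv]

lemma dt_dir_sq_le (v h : Fin n → ℝ) (hv : ∑ i, v i ^ 2 ≤ 1) : dt v (dir h) ^ 2 ≤ 1 := by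
  rw [dt_dir_sq]
  have h1 := Finset.sum_mul_sq_le_sq_mul_sq Finset.univ v h
  change dt v h ^ 2 ≤ (∑ i, v i ^ 2) * sqn h at h1
  have h0 := sqn_nonneg h
  rcases h0.eq_or_lt with h2 | h2
  · rw [← h2]; simp
  · rw [← div_eq_mul_inv, div_le_one h2]
    nlinarith

lemma measurable_dir : Measurable (dir (n := n)) := by
  unfold dir
  fun_prop

lemma tendsto_psi (v : Fin n → ℝ) (hv : ∑ i, v i ^ 2 = 1) (l : ℝ) :
    Filter.Tendsto (fun k : ℕ => ∫ h, Real.exp (l * cc v (1 / ((k : ℝ) + 1)) h) ∂(gI (Fin n)))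
      Filter.atTop (nhds (∫ h, Real.exp (l * dt v (dir h) ^ 2) ∂(gI (Fin n)))) := by
  refine tendsto_integral_of_dominated_convergence (fun _ => Real.exp |l|) ?_ ?_ ?_ ?_
  · exact fun k => (integrable_expcc v hv (by positivity) l).aestronglyMeasurable
  · exact integrable_const _
  · intro k
    refine Filter.Eventually.of_forall fun h => ?_
    have hδ : (0 : ℝ) < 1 / ((k : ℝ) + 1) := by positivity
    have h0 := cc_nonneg v hδ h
    have h1 := cc_le_one v hv hδ h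
    rw [Real.norm_eq_abs, abs_of_pos (Real.exp_pos _)]
    refine Real.exp_le_exp.2 ?_
    calc l * cc v (1 / ((k : ℝ) + 1)) h ≤ |l| * cc v (1 / ((k : ℝ) + 1)) h := by
          gcongr; exact le_abs_self l
      _ ≤ |l| * 1 := by gcongr
      _ = |l| := mul_one _
  · refine Filter.Eventually.of_forall fun h => ?_
    refine (Real.continuous_exp.tendsto _).comp ?_
    refine Filter.Tendsto.const_mul l ?_
    rw [dt_dir_sq]
    rcases (sqn_nonneg h).eq_or_lt with h2 | h2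
    · have : dt v h = 0 := sqn_eq_zero h2.symm v
      unfold cc
      simp [this]
    · unfold cc
      refine Filter.Tendsto.const_mul _ ?_
      refine Filter.Tendsto.inv₀ ?_ h2.ne'
      have := (tendsto_one_div_add_atTop_nhds_zero_nat (𝕜 := ℝ)).const_add (sqn h)
      simpa using this

/-- The ratio of exponential moments of the squared overlap with a fixed unit vector. -/
lemma psi_ratio_one (v : Fin n → ℝ) (hv : ∑ i, v i ^ 2 = 1) {l1 l2 : ℝ}
    (h1 : 0 ≤ l1) (h12 : l1 ≤ l2) :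
    (∫ h, Real.exp (l2 * dt v (dir h) ^ 2) ∂(gI (Fin n))) ^ 2 * (n - 2 * l2) ≤
      (∫ h, Real.exp (l1 * dt v (dir h) ^ 2) ∂(gI (Fin n))) ^ 2 * (n - 2 * l1) := by
  refine le_of_tendsto_of_tendsto' (((tendsto_psi v hv l2).pow 2).mul_const _)
    (((tendsto_psi v hv l1).pow 2).mul_const _) fun k => ?_
  exact psi_antitone v hv (by positivity) h1 h12

lemma integrable_exp_dt (v : Fin n → ℝ) (hv : ∑ i, v i ^ 2 ≤ 1) (l : ℝ) :
    Integrable (fun h => Real.exp (l * dt v (dir h) ^ 2)) (gI (Fin n)) := by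
  refine (EG.of_bdd (C := Real.exp |l|) ?_ fun h => ?_).integrable
  · exact ((((eg_dt v).meas.comp measurable_dir).pow_const 2).const_mul l).exp
  · rw [abs_of_pos (Real.exp_pos _)]
    refine Real.exp_le_exp.2 ?_
    have h1 := dt_dir_sq_le v h hv
    calc l * dt v (dir h) ^ 2 ≤ |l| * dt v (dir h) ^ 2 := by
          gcongr; exact le_abs_self l
      _ ≤ |l| * 1 := by gcongr
      _ = |l| := mul_one _

lemma psi_ratio_sqrt (v : Fin n → ℝ) (hv : ∑ i, v i ^ 2 = 1) {l1 l2 : ℝ}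
    (h1 : 0 ≤ l1) (h12 : l1 ≤ l2) :
    (∫ h, Real.exp (l2 * dt v (dir h) ^ 2) ∂(gI (Fin n))) * Real.sqrt (n - 2 * l2) ≤
      (∫ h, Real.exp (l1 * dt v (dir h) ^ 2) ∂(gI (Fin n))) * Real.sqrt (n - 2 * l1) := by
  have p1 : 0 < ∫ h, Real.exp (l1 * dt v (dir h) ^ 2) ∂(gI (Fin n)) :=
    integral_exp_pos (integrable_exp_dt v hv.le l1)
  have p2 : 0 < ∫ h, Real.exp (l2 * dt v (dir h) ^ 2) ∂(gI (Fin n)) :=
    integral_exp_pos (integrable_exp_dt v hv.le l2)
  have h := Real.sqrt_le_sqrt (psi_ratio_one v hv h1 h12)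
  rwa [Real.sqrt_mul (sq_nonneg _), Real.sqrt_mul (sq_nonneg _), Real.sqrt_sq p1.le,
    Real.sqrt_sq p2.le] at h

end Vale.Agent.P146.H310
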