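import Vale.Agent.P146.H310.Sp2

set_option linter.all false

/-!
The exponential moment of the squared overlap of two independent Gaussian directions, and the
association inequality.
-/

open MeasureTheory ProbabilityTheory

namespace Vale.Agent.P146.H310

open Vale.Agent.P157.Lv

/-! ### association -/

/-- Chebyshev's association inequality with a weight. -/
lemma cheb {Ω : Type*} [MeasurableSpace Ω] {μ : Measure Ω} [IsProbabilityMeasure μ]
    {w f G : Ω → ℝ} {S : Set Ω} (hw : ∀ x, 0 ≤ w x) (i1 : Integrable w μ)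
    (i2 : Integrable (fun x => w x * f x) μ) (i3 : Integrable (fun x => w x * G x) μ)
    (i4 : Integrable (fun x => w x * f x * G x) μ) (hS : ∀ᵐ x ∂μ, x ∈ S)
    (h : ∀ x ∈ S, ∀ y ∈ S, (f x - f y) * (G x - G y) ≤ 0) :
    (∫ x, w x * f x * G x ∂μ) * (∫ x, w x ∂μ) ≤ (∫ x, w x * f x ∂μ) * (∫ x, w x * G x ∂μ) := by
  have j1 : Integrable (fun p : Ω × Ω => (w p.1 * f p.1 * G p.1) * w p.2) (μ.prod μ) :=
    i4.mul_prod i1
  have j2 : Integrable (fun p : Ω × Ω => w p.1 * (w p.2 * f p.2 * G p.2)) (μ.prod μ) :=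
    i1.mul_prod i4
  have j3 : Integrable (fun p : Ω × Ω => (w p.1 * f p.1) * (w p.2 * G p.2)) (μ.prod μ) :=
    i2.mul_prod i3
  have j4 : Integrable (fun p : Ω × Ω => (w p.1 * G p.1) * (w p.2 * f p.2)) (μ.prod μ) :=
    i3.mul_prod i2
  have s1 : ∀ᵐ p ∂(μ.prod μ), p.1 ∈ S := Measure.quasiMeasurePreserving_fst.ae hS
  have s2 : ∀ᵐ p ∂(μ.prod μ), p.2 ∈ S := Measure.quasiMeasurePreserving_snd.ae hS
  have key : ∫ p : Ω × Ω, ((w p.1 * f p.1 * G p.1) * w p.2 + w p.1 * (w p.2 * f p.2 * G p.2))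
      ∂(μ.prod μ) ≤ ∫ p : Ω × Ω, ((w p.1 * f p.1) * (w p.2 * G p.2) +
        (w p.1 * G p.1) * (w p.2 * f p.2)) ∂(μ.prod μ) := by
    refine integral_mono_ae (j1.add j2) (j3.add j4) ?_
    filter_upwards [s1, s2] with p h1 h2
    have h3 := h p.1 h1 p.2 h2
    have h4 : 0 ≤ w p.1 * w p.2 := mul_nonneg (hw _) (hw _)
    nlinarith [mul_nonneg h4 (neg_nonneg.2 h3)]
  rw [integral_add j1 j2, integral_add j3 j4,
    integral_prod_mul (fun x => w x * f x * G x) w, integral_prod_mul w (fun x => w x * f x * G x),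
    integral_prod_mul (fun x => w x * f x) (fun x => w x * G x),
    integral_prod_mul (fun x => w x * G x) (fun x => w x * f x)] at key
  linarith

/-! ### the directions of two independent Gaussians -/

variable {n : ℕ}

lemma dt_comm (u v : Fin n → ℝ) : dt u v = dt v u := by
  unfold dt
  exact Finset.sum_congr rfl fun i _ => mul_comm _ _

lemma dir_unit {h : Fin n → ℝ} (h0 : h ≠ 0) : ∑ i, dir h i ^ 2 = 1 := by
  unfold dir
  have h1 : 0 < ∑ j, h j ^ 2 := by
    obtain ⟨i, hi⟩ := Function.ne_iff.1 h0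
    refine Finset.sum_pos' (fun i _ => sq_nonneg _) ⟨i, Finset.mem_univ i, ?_⟩
    exact sq_pos_of_ne_zero (by simpa using hi)
  simp only [div_pow, Real.sq_sqrt h1.le]
  rw [← Finset.sum_div, div_self h1.ne']

lemma dir_le_one (h : Fin n → ℝ) : ∑ i, dir h i ^ 2 ≤ 1 := by
  by_cases h0 : h = 0
  · subst h0
    unfold dir
    simp
  · exact (dir_unit h0).le

lemma ae_ne_zero (hn : 0 < n) : ∀ᵐ h ∂(gI (Fin n)), h ≠ 0 := by
  have h1 : ∀ᵐ x ∂(gaussianReal 0 1), x ≠ 0 := by
    have : NullSingletonClass (gaussianReal 0 1) := nullSingletonClass_gaussianReal one_ne_zero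
    rw [ae_iff]
    simp only [ne_eq, not_not, Set.setOf_eq_eq_singleton]
    exact measure_singleton 0
  have h2 := (measurePreserving_eval (fun _ : Fin n => gaussianReal 0 1)
    ⟨0, hn⟩).quasiMeasurePreserving.ae h1
  filter_upwards [h2] with h hh h0
  exact hh (by rw [h0]; rfl)

/-- squared overlap of two directions -/
noncomputable def ov (p : (Fin n → ℝ) × (Fin n → ℝ)) : ℝ := dt (dir p.1) (dir p.2) ^ 2

lemma ov_nonneg (p : (Fin n → ℝ) × (Fin n → ℝ)) : 0 ≤ ov p := sq_nonneg _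

lemma ov_le (p : (Fin n → ℝ) × (Fin n → ℝ)) : ov p ≤ 1 := dt_dir_sq_le _ _ (dir_le_one _)

lemma measurable_ov : Measurable (ov (n := n)) := by
  unfold ov dt
  have h1 : ∀ i, Measurable fun p : (Fin n → ℝ) × (Fin n → ℝ) => dir p.1 i := fun i =>
    (measurable_pi_apply i).comp (measurable_dir.comp measurable_fst)
  have h2 : ∀ i, Measurable fun p : (Fin n → ℝ) × (Fin n → ℝ) => dir p.2 i := fun i =>
    (measurable_pi_apply i).comp (measurable_dir.comp measurable_snd)
  exact (Finset.measurable_sum _ fun i _ => (h1 i).mul (h2 i)).pow_const 2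

lemma exp_ov_le (l : ℝ) (p : (Fin n → ℝ) × (Fin n → ℝ)) :
    Real.exp (l * ov p) ≤ Real.exp |l| := by
  refine Real.exp_le_exp.2 ?_
  have h0 := ov_nonneg p
  have h1 := ov_le p
  calc l * ov p ≤ |l| * ov p := by gcongr; exact le_abs_self l
    _ ≤ |l| * 1 := by gcongr
    _ = |l| := mul_one _

lemma integrable_exp_ov (l : ℝ) :
    Integrable (fun p => Real.exp (l * ov p)) ((gI (Fin n)).prod (gI (Fin n))) := by
  refine Integrable.of_bound ((measurable_ov.const_mul l).exp.aestronglyMeasurable)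
    (Real.exp |l|) (Filter.Eventually.of_forall fun p => ?_)
  rw [Real.norm_eq_abs, abs_of_pos (Real.exp_pos _)]
  exact exp_ov_le l p

/-- The ratio of the exponential moments of the squared overlap. -/
lemma psi_ratio (hn : 0 < n) {l1 l2 : ℝ} (h1 : 0 ≤ l1) (h12 : l1 ≤ l2) :
    (∫ p, Real.exp (l2 * ov p) ∂((gI (Fin n)).prod (gI (Fin n)))) * Real.sqrt (n - 2 * l2) ≤
      (∫ p, Real.exp (l1 * ov p) ∂((gI (Fin n)).prod (gI (Fin n)))) * Real.sqrt (n - 2 * l1) := by
  rw [integral_prod _ (integrable_exp_ov l2), integral_prod _ (integrable_exp_ov l1),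
    ← integral_mul_const, ← integral_mul_const]
  refine integral_mono_ae ((integrable_exp_ov l2).integral_prod_left.mul_const _)
    ((integrable_exp_ov l1).integral_prod_left.mul_const _) ?_
  filter_upwards [ae_ne_zero hn] with h h0
  exact psi_ratio_sqrt (dir h) (dir_unit h0) h1 h12

lemma psi_pos (l : ℝ) :
    0 < ∫ p, Real.exp (l * ov p) ∂((gI (Fin n)).prod (gI (Fin n))) :=
  integral_exp_pos (integrable_exp_ov l)

lemma psi_zero : ∫ p, Real.exp (0 * ov p) ∂((gI (Fin n)).prod (gI (Fin n))) = 1 := by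
  simp

end Vale.Agent.P146.H310
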