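import Vale.Agent.P146.H310.Sp3
import Vale.Agent.P146.H605.LogCc

set_option linter.all false

/-!
The likelihood of a spherical spike: bounds, log-convexity, invariance under rotations, and the
monotonicity of the shifted reciprocal moment in the squared overlap (Prekopa).
-/

open MeasureTheory ProbabilityTheory
open scoped ENNReal

namespace Vale.Agent.P146.H310

open Vale.Agent.P157.Lv

/-- Prekopa-Leindler with real exponentials. -/
theorem pl_exp {ι : Type} [Fintype ι] {U0 U1 U2 : (ι → ℝ) → ℝ} (h0 : EG fun z => Real.exp (U0 z))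
    (h1 : EG fun z => Real.exp (U1 z)) (h2 : EG fun z => Real.exp (U2 z)) {s t : ℝ} (hs : 0 < s)
    (ht : 0 < t) (hst : s + t = 1) (h : ∀ x y, s * U0 x + t * U1 y ≤ U2 (s • x + t • y)) :
    (∫ z, Real.exp (U0 z) ∂(gI ι)) ^ s * (∫ z, Real.exp (U1 z) ∂(gI ι)) ^ t ≤
      ∫ z, Real.exp (U2 z) ∂(gI ι) := by
  have key := H605.LogCc.pl_gauss hs ht hst (fun z => ENNReal.ofReal (Real.exp (U0 z)))
    (fun z => ENNReal.ofReal (Real.exp (U1 z))) (fun z => ENNReal.ofReal (Real.exp (U2 z)))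
    h0.meas.ennreal_ofReal h1.meas.ennreal_ofReal h2.meas.ennreal_ofReal (fun x y => by
      rw [ENNReal.ofReal_rpow_of_pos (Real.exp_pos _), ENNReal.ofReal_rpow_of_pos (Real.exp_pos _),
        ← ENNReal.ofReal_mul (by positivity), ← Real.exp_mul, ← Real.exp_mul, ← Real.exp_add]
      refine ENNReal.ofReal_le_ofReal (Real.exp_le_exp.2 ?_)
      have := h x y
      linarith)
  rw [← ofReal_integral_eq_lintegral_ofReal h0.integrable
      (Filter.Eventually.of_forall fun z => (Real.exp_pos _).le),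
    ← ofReal_integral_eq_lintegral_ofReal h1.integrable
      (Filter.Eventually.of_forall fun z => (Real.exp_pos _).le),
    ← ofReal_integral_eq_lintegral_ofReal h2.integrable
      (Filter.Eventually.of_forall fun z => (Real.exp_pos _).le)] at key
  have p0 : 0 < ∫ z, Real.exp (U0 z) ∂(gI ι) := integral_exp_pos h0.integrable
  have p1 : 0 < ∫ z, Real.exp (U1 z) ∂(gI ι) := integral_exp_pos h1.integrable
  have p2 : 0 < ∫ z, Real.exp (U2 z) ∂(gI ι) := integral_exp_pos h2.integrable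
  rw [ENNReal.ofReal_rpow_of_pos p0, ENNReal.ofReal_rpow_of_pos p1,
    ← ENNReal.ofReal_mul (by positivity)] at key
  exact (ENNReal.ofReal_le_ofReal_iff p2.le).1 key

/-- Hoelder for exponentials, by convexity. -/
lemma log_int_exp_convex {Ω : Type*} [MeasurableSpace Ω] {μ : Measure Ω} [NeZero μ]
    {A B : Ω → ℝ} {s t : ℝ} (hs : 0 ≤ s) (ht : 0 ≤ t) (hst : s + t = 1)
    (iA : Integrable (fun x => Real.exp (A x)) μ) (iB : Integrable (fun x => Real.exp (B x)) μ)
    (iAB : Integrable (fun x => Real.exp (s * A x + t * B x)) μ) :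
    Real.log (∫ x, Real.exp (s * A x + t * B x) ∂μ) ≤
      s * Real.log (∫ x, Real.exp (A x) ∂μ) + t * Real.log (∫ x, Real.exp (B x) ∂μ) := by
  have pA : 0 < ∫ x, Real.exp (A x) ∂μ := integral_exp_pos iA
  have pB : 0 < ∫ x, Real.exp (B x) ∂μ := integral_exp_pos iB
  have pAB : 0 < ∫ x, Real.exp (s * A x + t * B x) ∂μ := integral_exp_pos iAB
  set α := Real.log (∫ x, Real.exp (A x) ∂μ) with hα
  set β := Real.log (∫ x, Real.exp (B x) ∂μ) with hβ
  have eA : Real.exp α = ∫ x, Real.exp (A x) ∂μ := Real.exp_log pA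
  have eB : Real.exp β = ∫ x, Real.exp (B x) ∂μ := Real.exp_log pB
  have h1 : ∫ x, Real.exp (s * A x + t * B x) * Real.exp (-(s * α + t * β)) ∂μ ≤
      ∫ x, (s * (Real.exp (A x) * Real.exp (-α)) + t * (Real.exp (B x) * Real.exp (-β))) ∂μ := by
    refine integral_mono (iAB.mul_const _) (((iA.mul_const _).const_mul s).add
      ((iB.mul_const _).const_mul t)) fun x => ?_
    simp only [← Real.exp_add]
    have h2 := convexOn_exp.2 (Set.mem_univ (A x + -α)) (Set.mem_univ (B x + -β)) hs ht hst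
    simp only [smul_eq_mul] at h2
    refine le_trans (le_of_eq ?_) h2
    congr 1
    ring
  rw [integral_mul_const, integral_add ((iA.mul_const _).const_mul s)
    ((iB.mul_const _).const_mul t), integral_const_mul, integral_const_mul, integral_mul_const,
    integral_mul_const, ← eA, ← eB, ← Real.exp_add, ← Real.exp_add, add_neg_cancel,
    add_neg_cancel, Real.exp_zero, mul_one, mul_one, hst] at h1
  rw [Real.exp_neg, ← div_eq_mul_inv, div_le_one (Real.exp_pos _)] at h1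
  exact (Real.log_le_iff_le_exp pAB).2 h1

variable {n : ℕ} {κ : Type} [Fintype κ]

/-- The likelihood of a spherical spike. -/
noncomputable def LL (m : (Fin n → ℝ) → κ → ℝ) (lam rho : ℝ) (y : κ → ℝ) : ℝ :=
  ∫ h, Real.exp (lam * ∑ e, y e * m (dir h) e - lam ^ 2 * rho ^ 2 / 2) ∂(gI (Fin n))

/-- A feature map with the squared-overlap Gram kernel. -/
structure Feat (m : (Fin n → ℝ) → κ → ℝ) : Prop where
  meas : Measurable m
  gram : ∀ u v, ∑ e, m u e * m v e = (∑ i, u i * v i) ^ 2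

variable {m : (Fin n → ℝ) → κ → ℝ}

lemma Feat.abs_le (hm : Feat m) (h : Fin n → ℝ) (e : κ) : |m (dir h) e| ≤ 1 := by
  have h1 : ∑ e, m (dir h) e * m (dir h) e ≤ 1 := by
    rw [hm.gram]
    have h2 := dir_le_one h
    have h3 : ∑ i, dir h i * dir h i = ∑ i, dir h i ^ 2 :=
      Finset.sum_congr rfl fun i _ => by ring
    rw [h3]
    have h4 : 0 ≤ ∑ i, dir h i ^ 2 := Finset.sum_nonneg fun i _ => sq_nonneg _
    nlinarith
  have h5 : m (dir h) e * m (dir h) e ≤ ∑ e, m (dir h) e * m (dir h) e :=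
    Finset.single_le_sum (f := fun e => m (dir h) e * m (dir h) e)
      (fun i _ => mul_self_nonneg _) (Finset.mem_univ e)
  have h6 : m (dir h) e ^ 2 ≤ 1 := by nlinarith
  exact (sq_le_one_iff_abs_le_one _).1 h6

lemma Feat.dot_le (hm : Feat m) (z : κ → ℝ) (h : Fin n → ℝ) :
    |∑ e, z e * m (dir h) e| ≤ Fintype.card κ * ‖z‖ := by
  refine (Finset.abs_sum_le_sum_abs _ _).trans ?_
  have : ∀ e ∈ (Finset.univ : Finset κ), |z e * m (dir h) e| ≤ ‖z‖ := by
    intro e _
    rw [abs_mul]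
    have h1 := hm.abs_le h e
    have h2 : |z e| ≤ ‖z‖ := norm_le_pi_norm z e
    calc |z e| * |m (dir h) e| ≤ ‖z‖ * 1 := by gcongr
      _ = ‖z‖ := mul_one _
  refine (Finset.sum_le_sum this).trans ?_
  simp

lemma Feat.meas_joint (hm : Feat m) (lam k : ℝ) :
    Measurable fun p : (κ → ℝ) × (Fin n → ℝ) =>
      Real.exp (lam * ∑ e, p.1 e * m (dir p.2) e - k) := by
  have h1 : ∀ e, Measurable fun p : (κ → ℝ) × (Fin n → ℝ) => m (dir p.2) e := fun e =>
    (measurable_pi_apply e).comp (hm.meas.comp (measurable_dir.comp measurable_snd))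
  have h2 : ∀ e, Measurable fun p : (κ → ℝ) × (Fin n → ℝ) => p.1 e := fun e =>
    (measurable_pi_apply e).comp measurable_fst
  exact (((Finset.measurable_sum _ fun e _ => (h2 e).mul (h1 e)).const_mul lam).sub_const k).exp

lemma Feat.integrable_exp (hm : Feat m) (lam k : ℝ) (y : κ → ℝ) :
    Integrable (fun h => Real.exp (lam * ∑ e, y e * m (dir h) e - k)) (gI (Fin n)) := by
  refine Integrable.of_bound ?_ (Real.exp (|lam| * (Fintype.card κ * ‖y‖) - k))
    (Filter.Eventually.of_forall fun h => ?_)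
  · exact ((hm.meas_joint lam k).comp measurable_prodMk_left).aestronglyMeasurable
  · rw [Real.norm_eq_abs, abs_of_pos (Real.exp_pos _)]
    refine Real.exp_le_exp.2 ?_
    have h1 : lam * ∑ e, y e * m (dir h) e ≤ |lam| * (Fintype.card κ * ‖y‖) := by
      refine (le_abs_self _).trans ?_
      rw [abs_mul]
      gcongr
      exact hm.dot_le y h
    linarith

lemma Feat.LL_pos (hm : Feat m) (lam rho : ℝ) (y : κ → ℝ) : 0 < LL m lam rho y :=
  integral_exp_pos (hm.integrable_exp lam _ y)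

lemma Feat.LL_le (hm : Feat m) (lam rho : ℝ) (y : κ → ℝ) :
    LL m lam rho y ≤ Real.exp (|lam| * Fintype.card κ * ‖y‖) := by
  have h1 : LL m lam rho y ≤ ∫ h, Real.exp (|lam| * Fintype.card κ * ‖y‖) ∂(gI (Fin n)) := by
    refine integral_mono (hm.integrable_exp lam _ y) (integrable_const _) fun h => ?_
    refine Real.exp_le_exp.2 ?_
    have h1 : lam * ∑ e, y e * m (dir h) e ≤ |lam| * (Fintype.card κ * ‖y‖) := by
      refine (le_abs_self _).trans ?_
      rw [abs_mul]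
      gcongr
      exact hm.dot_le y h
    have h2 : 0 ≤ lam ^ 2 * rho ^ 2 / 2 := by positivity
    linarith
  refine h1.trans (le_of_eq ?_)
  simp

lemma Feat.LL_ge (hm : Feat m) (lam rho : ℝ) (y : κ → ℝ) :
    Real.exp (-(|lam| * Fintype.card κ * ‖y‖) - lam ^ 2 * rho ^ 2 / 2) ≤ LL m lam rho y := by
  have h1 : ∫ h, Real.exp (-(|lam| * Fintype.card κ * ‖y‖) - lam ^ 2 * rho ^ 2 / 2)
      ∂(gI (Fin n)) ≤ LL m lam rho y := by
    refine integral_mono (integrable_const _) (hm.integrable_exp lam _ y) fun h => ?_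
    refine Real.exp_le_exp.2 ?_
    have h1 : -(|lam| * (Fintype.card κ * ‖y‖)) ≤ lam * ∑ e, y e * m (dir h) e := by
      refine le_trans ?_ (neg_abs_le _)
      rw [abs_mul]
      have := hm.dot_le y h
      have h3 : |lam| * |∑ e, y e * m (dir h) e| ≤ |lam| * (Fintype.card κ * ‖y‖) := by gcongr
      linarith
    linarith
  refine le_trans (le_of_eq ?_) h1
  simp

lemma Feat.LL_meas (hm : Feat m) (lam rho : ℝ) : Measurable (LL m lam rho) := by
  have := (hm.meas_joint lam (lam ^ 2 * rho ^ 2 / 2)).stronglyMeasurable.integral_prod_right'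
    (ν := gI (Fin n))
  exact this.measurable

lemma Feat.LL_eg (hm : Feat m) (lam rho : ℝ) : EG (LL m lam rho) := by
  refine ⟨hm.LL_meas lam rho, 1, |lam| * Fintype.card κ, zero_le_one, by positivity, fun y => ?_⟩
  rw [abs_of_pos (hm.LL_pos lam rho y), one_mul]
  exact hm.LL_le lam rho y

lemma Feat.LLinv_eg (hm : Feat m) (lam rho : ℝ) : EG (fun y => (LL m lam rho y)⁻¹) := by
  refine ⟨(hm.LL_meas lam rho).inv, Real.exp (lam ^ 2 * rho ^ 2 / 2), |lam| * Fintype.card κ,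
    (Real.exp_pos _).le, by positivity, fun y => ?_⟩
  rw [abs_of_pos (inv_pos.2 (hm.LL_pos lam rho y)), ← Real.exp_add]
  rw [inv_le_comm₀ (hm.LL_pos lam rho y) (Real.exp_pos _), ← Real.exp_neg]
  refine le_trans (le_of_eq ?_) (hm.LL_ge lam rho y)
  congr 1
  ring

lemma Feat.log_LL_convex (hm : Feat m) (lam rho : ℝ) {s t : ℝ} (hs : 0 ≤ s) (ht : 0 ≤ t)
    (hst : s + t = 1) (x y : κ → ℝ) :
    Real.log (LL m lam rho (s • x + t • y)) ≤
      s * Real.log (LL m lam rho x) + t * Real.log (LL m lam rho y) := by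
  have e : ∀ h : Fin n → ℝ, lam * ∑ e, (s • x + t • y) e * m (dir h) e - lam ^ 2 * rho ^ 2 / 2 =
      s * (lam * ∑ e, x e * m (dir h) e - lam ^ 2 * rho ^ 2 / 2) +
      t * (lam * ∑ e, y e * m (dir h) e - lam ^ 2 * rho ^ 2 / 2) := by
    intro h
    have e1 : ∑ e, (s • x + t • y) e * m (dir h) e =
        s * (∑ e, x e * m (dir h) e) + t * ∑ e, y e * m (dir h) e := by
      rw [Finset.mul_sum, Finset.mul_sum, ← Finset.sum_add_distrib]
      refine Finset.sum_congr rfl fun e _ => ?_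
      simp only [Pi.add_apply, Pi.smul_apply, smul_eq_mul]
      ring
    rw [e1]
    have : t = 1 - s := by linarith
    subst this
    ring
  have i := hm.integrable_exp lam (lam ^ 2 * rho ^ 2 / 2) (s • x + t • y)
  simp_rw [e] at i
  have := log_int_exp_convex hs ht hst (hm.integrable_exp lam (lam ^ 2 * rho ^ 2 / 2) x)
    (hm.integrable_exp lam (lam ^ 2 * rho ^ 2 / 2) y) i
  unfold LL
  simp_rw [e]
  exact this

/-- The shifted reciprocal moment. -/
noncomputable def GG (m : (Fin n → ℝ) → κ → ℝ) (a : ℝ) (S : κ → ℝ) : ℝ :=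
  ∫ z, (LL m a 1 (z + a • S))⁻¹ ∂(gI κ)

lemma EG.shift {f : (κ → ℝ) → ℝ} (hf : EG f) (y : κ → ℝ) : EG (fun z => f (z + y)) := by
  obtain ⟨C, k, hC, hk, hb⟩ := hf.bdd
  refine ⟨hf.meas.comp (by fun_prop), C * Real.exp (k * ‖y‖), k, by positivity, hk,
    fun z => (hb _).trans ?_⟩
  rw [mul_assoc, ← Real.exp_add]
  gcongr
  nlinarith [mul_le_mul_of_nonneg_left (norm_add_le z y) hk]

lemma Feat.GG_eg (hm : Feat m) (a : ℝ) (S : κ → ℝ) :
    EG (fun z => (LL m a 1 (z + a • S))⁻¹) := EG.shift (hm.LLinv_eg a 1) _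

lemma Feat.GG_pos (hm : Feat m) (a : ℝ) (S : κ → ℝ) : 0 < GG m a S := by
  have e : ∀ z, (LL m a 1 (z + a • S))⁻¹ = Real.exp (-Real.log (LL m a 1 (z + a • S))) := by
    intro z
    rw [Real.exp_neg, Real.exp_log (hm.LL_pos _ _ _)]
  unfold GG
  simp_rw [e]
  refine integral_exp_pos ?_
  simp_rw [← e]
  exact (hm.GG_eg a S).integrable

lemma Feat.GG_logconcave (hm : Feat m) (a : ℝ) {s t : ℝ} (hs : 0 < s) (ht : 0 < t)
    (hst : s + t = 1) (S S' : κ → ℝ) :
    GG m a S ^ s * GG m a S' ^ t ≤ GG m a (s • S + t • S') := by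
  have e : ∀ S z, (LL m a 1 (z + a • S))⁻¹ = Real.exp (-Real.log (LL m a 1 (z + a • S))) := by
    intro S z
    rw [Real.exp_neg, Real.exp_log (hm.LL_pos _ _ _)]
  have h : ∀ S, EG (fun z => Real.exp (-Real.log (LL m a 1 (z + a • S)))) := by
    intro S
    simp_rw [← e]
    exact hm.GG_eg a S
  have := pl_exp (h S) (h S') (h (s • S + t • S')) hs ht hst (fun x y => by
    have h1 := hm.log_LL_convex a 1 hs.le ht.le hst (x + a • S) (y + a • S')
    have h2 : s • (x + a • S) + t • (y + a • S') = s • x + t • y + a • (s • S + t • S') := by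
      funext e
      simp only [Pi.add_apply, Pi.smul_apply, smul_eq_mul]
      ring
    rw [h2] at h1
    linarith)
  unfold GG
  simp_rw [e]
  exact this

/-! ### invariance -/

lemma dir_act (O : EuclideanSpace ℝ (Fin n) ≃ₗᵢ[ℝ] EuclideanSpace ℝ (Fin n)) (h : Fin n → ℝ) :
    dir (act O h) = act O (dir h) := by
  have h1 : ∑ j, act O h j ^ 2 = ∑ j, h j ^ 2 := by
    have := act_dot O h h
    simpa [pow_two] using this
  have h2 : ∀ x : Fin n → ℝ, dir x = (Real.sqrt (∑ j, x j ^ 2))⁻¹ • x := by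
    intro x
    funext i
    unfold dir
    simp only [Pi.smul_apply, smul_eq_mul]
    rw [div_eq_inv_mul]
  rw [h2, h2 h, act_smul, h1]

lemma Feat.exists_lift (hm : Feat m)
    (O : EuclideanSpace ℝ (Fin n) ≃ₗᵢ[ℝ] EuclideanSpace ℝ (Fin n)) :
    ∃ T : EuclideanSpace ℝ κ ≃ₗᵢ[ℝ] EuclideanSpace ℝ κ, ∀ u, act T (m u) = m (act O u) :=
  exists_act m (fun u => m (act O u)) fun u v => by rw [hm.gram, hm.gram, act_dot]

lemma Feat.LL_act (hm : Feat m)
    {O : EuclideanSpace ℝ (Fin n) ≃ₗᵢ[ℝ] EuclideanSpace ℝ (Fin n)}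
    {T : EuclideanSpace ℝ κ ≃ₗᵢ[ℝ] EuclideanSpace ℝ κ} (hT : ∀ u, act T (m u) = m (act O u))
    (lam rho : ℝ) (y : κ → ℝ) : LL m lam rho (act T y) = LL m lam rho y := by
  have h1 : ∫ h, Real.exp (lam * ∑ e, act T y e * m (dir h) e - lam ^ 2 * rho ^ 2 / 2)
      ∂(gI (Fin n)) = ∫ h, Real.exp (lam * ∑ e, act T y e * m (dir (act O h)) e -
        lam ^ 2 * rho ^ 2 / 2) ∂(gI (Fin n)) := by
    conv_lhs => rw [← (mp_act O).map_eq]
    rw [integral_map (mp_act O).measurable.aemeasurable]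
    exact ((hm.meas_joint lam (lam ^ 2 * rho ^ 2 / 2)).comp
      measurable_prodMk_left).aestronglyMeasurable
  unfold LL
  rw [h1]
  refine integral_congr_ae (Filter.Eventually.of_forall fun h => ?_)
  simp only
  rw [dir_act, ← hT, act_dot]

lemma Feat.GG_act (hm : Feat m)
    {O : EuclideanSpace ℝ (Fin n) ≃ₗᵢ[ℝ] EuclideanSpace ℝ (Fin n)}
    {T : EuclideanSpace ℝ κ ≃ₗᵢ[ℝ] EuclideanSpace ℝ κ} (hT : ∀ u, act T (m u) = m (act O u))
    (a : ℝ) (S : κ → ℝ) : GG m a (act T S) = GG m a S := by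
  unfold GG
  conv_lhs => rw [← (mp_act T).map_eq]
  rw [integral_map (mp_act T).measurable.aemeasurable
    (hm.GG_eg a (act T S)).meas.aestronglyMeasurable]
  refine integral_congr_ae (Filter.Eventually.of_forall fun z => ?_)
  simp only
  rw [← act_smul, ← act_add, hm.LL_act hT]

/-- two vectors of the feature space with the same Gram data coincide -/
lemma eq_of_sum_sq {x y : κ → ℝ} (h : ∑ e, (x e - y e) ^ 2 = 0) : x = y := by
  funext e
  have := (Finset.sum_eq_zero_iff_of_nonneg (fun i _ => sq_nonneg (x i - y i))).1 h e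
    (Finset.mem_univ e)
  exact sub_eq_zero.1 (pow_eq_zero_iff (two_ne_zero) |>.1 this)

lemma Feat.neg (hm : Feat m) (u : Fin n → ℝ) : m (-u) = m u := by
  refine eq_of_sum_sq ?_
  have e : ∑ e, (m (-u) e - m u e) ^ 2 = (∑ e, m (-u) e * m (-u) e) -
      2 * (∑ e, m (-u) e * m u e) + ∑ e, m u e * m u e := by
    rw [Finset.mul_sum, ← Finset.sum_sub_distrib, ← Finset.sum_add_distrib]
    exact Finset.sum_congr rfl fun e _ => by ring
  rw [e, hm.gram, hm.gram, hm.gram]
  simp only [Pi.neg_apply, neg_mul, mul_neg, neg_neg, Finset.sum_neg_distrib]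
  ring

/-- the polarisation identity -/
lemma Feat.polar (hm : Feat m) {e1 e2 : Fin n → ℝ} (h11 : dt e1 e1 = 1) (h22 : dt e2 e2 = 1)
    (h12 : dt e1 e2 = 0) (x y : ℝ) :
    m (x • e1 + y • e2) + m (x • e1 - y • e2) = (2 * x ^ 2) • m e1 + (2 * y ^ 2) • m e2 := by
  have lin1 : ∀ (a b : ℝ) (w : Fin n → ℝ), ∑ i, (a • e1 + b • e2) i * w i =
      a * dt e1 w + b * dt e2 w := by
    intro a b w
    unfold dt
    rw [Finset.mul_sum, Finset.mul_sum, ← Finset.sum_add_distrib]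
    refine Finset.sum_congr rfl fun i _ => ?_
    simp only [Pi.add_apply, Pi.smul_apply, smul_eq_mul]
    ring
  have lin2 : ∀ (a b : ℝ) (w : Fin n → ℝ), dt w (a • e1 + b • e2) = a * dt e1 w + b * dt e2 w := by
    intro a b w
    rw [dt_comm]
    exact lin1 a b w
  have hsub : x • e1 - y • e2 = x • e1 + (-y) • e2 := by
    rw [neg_smul, sub_eq_add_neg]
  rw [hsub]
  have h21 : dt e2 e1 = 0 := by rw [dt_comm]; exact h12
  have g : ∀ a b c d : ℝ, ∑ e, m (a • e1 + b • e2) e * m (c • e1 + d • e2) e =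
      (a * c + b * d) ^ 2 := by
    intro a b c d
    rw [hm.gram, lin1, lin2, lin2, h11, h22, h12, h21]
    ring
  have g1 : m e1 = m ((1 : ℝ) • e1 + (0 : ℝ) • e2) := by rw [one_smul, zero_smul, add_zero]
  have g2 : m e2 = m ((0 : ℝ) • e1 + (1 : ℝ) • e2) := by rw [one_smul, zero_smul, zero_add]
  rw [g1, g2]
  refine eq_of_sum_sq ?_
  set A := m (x • e1 + y • e2) with hA
  set B := m (x • e1 + (-y) • e2) with hB
  set C := m ((1 : ℝ) • e1 + (0 : ℝ) • e2) with hC
  set D := m ((0 : ℝ) • e1 + (1 : ℝ) • e2) with hD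
  have e : ∑ e, ((A + B) e - ((2 * x ^ 2) • C + (2 * y ^ 2) • D) e) ^ 2 =
      (∑ e, A e * A e) + (∑ e, B e * B e) + 4 * x ^ 4 * (∑ e, C e * C e) +
      4 * y ^ 4 * (∑ e, D e * D e) + 2 * (∑ e, A e * B e) - 4 * x ^ 2 * (∑ e, A e * C e) -
      4 * y ^ 2 * (∑ e, A e * D e) - 4 * x ^ 2 * (∑ e, B e * C e) -
      4 * y ^ 2 * (∑ e, B e * D e) + 8 * x ^ 2 * y ^ 2 * (∑ e, C e * D e) := by
    simp only [Finset.mul_sum, ← Finset.sum_sub_distrib, ← Finset.sum_add_distrib]
    refine Finset.sum_congr rfl fun e _ => ?_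
    simp only [Pi.add_apply, Pi.smul_apply, smul_eq_mul]
    ring
  rw [e]
  simp only [hA, hB, hC, hD, g]
  ring

/-- the reciprocal moment depends on the overlap only -/
lemma Feat.GG_pair (hm : Feat m) (a : ℝ) {u u' v v' : Fin n → ℝ} (hu : dt u u = dt v v)
    (hu' : dt u' u' = dt v' v') (huu : dt u u' = dt v v') :
    GG m a (m u + m u') = GG m a (m v + m v') := by
  obtain ⟨O, hO⟩ := exists_act (fun b : Bool => if b then u else u')
    (fun b : Bool => if b then v else v') (by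
      intro i j
      cases i <;> cases j
      · exact hu'
      · have h1 : dt u' u = dt v' v := by rw [dt_comm, huu, dt_comm]
        exact h1
      · exact huu
      · exact hu)
  have h1 : act O u = v := hO true
  have h2 : act O u' = v' := hO false
  obtain ⟨T, hT⟩ := hm.exists_lift O
  rw [← h1, ← h2, ← hT, ← hT, ← act_add, hm.GG_act hT]

lemma Feat.GG_pair_sq (hm : Feat m) (a : ℝ) {u u' v v' : Fin n → ℝ} (hu : dt u u = dt v v)
    (hu' : dt u' u' = dt v' v') (huu : dt u u' ^ 2 = dt v v' ^ 2) :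
    GG m a (m u + m u') = GG m a (m v + m v') := by
  rcases sq_eq_sq_iff_eq_or_eq_neg.1 huu with h | h
  · exact hm.GG_pair a hu hu' h
  · rw [← hm.neg v']
    refine hm.GG_pair a hu ?_ ?_
    · rw [hu']
      unfold dt
      simp
    · rw [h]
      unfold dt
      simp

lemma dt_add_right (u v w : Fin n → ℝ) : dt u (v + w) = dt u v + dt u w := by
  unfold dt
  rw [← Finset.sum_add_distrib]
  exact Finset.sum_congr rfl fun i _ => by simp only [Pi.add_apply]; ring

lemma dt_smul_right (u v : Fin n → ℝ) (c : ℝ) : dt u (c • v) = c * dt u v := by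
  unfold dt
  rw [Finset.mul_sum]
  exact Finset.sum_congr rfl fun i _ => by simp only [Pi.smul_apply, smul_eq_mul]; ring

lemma dt_add_left (u v w : Fin n → ℝ) : dt (u + v) w = dt u w + dt v w := by
  rw [dt_comm, dt_add_right, dt_comm w u, dt_comm w v]

lemma dt_smul_left (u v : Fin n → ℝ) (c : ℝ) : dt (c • u) v = c * dt u v := by
  rw [dt_comm, dt_smul_right, dt_comm]

lemma dt_pair {e1 e2 : Fin n → ℝ} (h11 : dt e1 e1 = 1) (h22 : dt e2 e2 = 1)
    (h12 : dt e1 e2 = 0) (a b c d : ℝ) :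
    dt (a • e1 + b • e2) (c • e1 + d • e2) = a * c + b * d := by
  have h21 : dt e2 e1 = 0 := by rw [dt_comm, h12]
  rw [dt_add_left, dt_add_right, dt_add_right, dt_smul_left, dt_smul_right, dt_smul_left,
    dt_smul_right, dt_smul_left, dt_smul_right, dt_smul_left, dt_smul_right, h11, h22, h12, h21]
  ring

/-- Prekopa in the plane of an orthonormal pair. -/
lemma Feat.GG_plane (hm : Feat m) (a : ℝ) {e1 e2 p p' : Fin n → ℝ} (h11 : dt e1 e1 = 1)
    (h22 : dt e2 e2 = 1) (h12 : dt e1 e2 = 0) (hp : dt p p = 1) (hp' : dt p' p' = 1)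
    {c1 c2 : ℝ} (hc2sq : c2 ^ 2 = dt p p' ^ 2) (hc2pos : 0 < c2) (hc21 : c2 ≤ 1)
    (hc1l : -c2 < c1) (hc1r : c1 < c2) :
    GG m a (m p + m p') ≤ GG m a ((1 + c1) • m e1 + (1 - c1) • m e2) := by
  obtain ⟨x, hx⟩ : ∃ x, x = Real.sqrt ((1 + c2) / 2) := ⟨_, rfl⟩
  obtain ⟨y, hy⟩ : ∃ y, y = Real.sqrt ((1 - c2) / 2) := ⟨_, rfl⟩
  have hx2 : x ^ 2 = (1 + c2) / 2 := by rw [hx]; exact Real.sq_sqrt (by linarith)
  have hy2 : y ^ 2 = (1 - c2) / 2 := by rw [hy]; exact Real.sq_sqrt (by linarith)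
  have hsub : ∀ a b : ℝ, a • e1 - b • e2 = a • e1 + (-b) • e2 := by
    intro a b
    rw [neg_smul, sub_eq_add_neg]
  have hP : GG m a (m p + m p') = GG m a (m (x • e1 + y • e2) + m (x • e1 - y • e2)) := by
    refine hm.GG_pair_sq a ?_ ?_ ?_
    · rw [hp, dt_pair h11 h22 h12]; linear_combination -hx2 - hy2
    · rw [hp', hsub, dt_pair h11 h22 h12]; linear_combination -hx2 - hy2
    · rw [hsub, dt_pair h11 h22 h12, ← hc2sq]
      have : x * x + y * -y = c2 := by linear_combination hx2 - hy2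
      rw [this]
  have hQ : GG m a (m p + m p') = GG m a (m (y • e1 + x • e2) + m (y • e1 - x • e2)) := by
    refine hm.GG_pair_sq a ?_ ?_ ?_
    · rw [hp, dt_pair h11 h22 h12]; linear_combination -hx2 - hy2
    · rw [hp', hsub, dt_pair h11 h22 h12]; linear_combination -hx2 - hy2
    · rw [hsub, dt_pair h11 h22 h12, ← hc2sq]
      have : y * y + x * -x = -c2 := by linear_combination hy2 - hx2
      rw [this]
      ring
  rw [hm.polar h11 h22 h12] at hP hQ
  obtain ⟨θ, hθ⟩ : ∃ θ, θ = (1 + c1 / c2) / 2 := ⟨_, rfl⟩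
  have hr : -1 < c1 / c2 ∧ c1 / c2 < 1 := by
    constructor
    · rw [lt_div_iff₀ hc2pos]; linarith
    · rw [div_lt_one hc2pos]; exact hc1r
  have hθ0 : 0 < θ := by rw [hθ]; linarith [hr.1]
  have hθ1 : 0 < 1 - θ := by rw [hθ]; linarith [hr.2]
  have hlc := hm.GG_logconcave a hθ0 hθ1 (by ring)
    ((2 * x ^ 2) • m e1 + (2 * y ^ 2) • m e2) ((2 * y ^ 2) • m e1 + (2 * x ^ 2) • m e2)
  rw [← hP, ← hQ, ← Real.rpow_add (hm.GG_pos a _), add_sub_cancel, Real.rpow_one] at hlc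
  refine hlc.trans (le_of_eq ?_)
  congr 1
  have hc1e : c1 / c2 * c2 = c1 := div_mul_cancel₀ _ hc2pos.ne'
  funext e
  simp only [Pi.add_apply, Pi.smul_apply, smul_eq_mul, hx2, hy2]
  have k1 : θ * (2 * ((1 + c2) / 2)) + (1 - θ) * (2 * ((1 - c2) / 2)) = 1 + c1 := by
    rw [hθ]
    linear_combination hc1e
  have k2 : θ * (2 * ((1 - c2) / 2)) + (1 - θ) * (2 * ((1 + c2) / 2)) = 1 - c1 := by
    rw [hθ]
    linear_combination -hc1e
  linear_combination (m e1 e) * k1 + (m e2 e) * k2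

/-- the orthonormal pair of the plane of two unit vectors -/
lemma Feat.exists_plane (hm : Feat m) {u u' : Fin n → ℝ} (hu : dt u u = 1)
    (hu' : dt u' u' = 1) (h1 : -1 < dt u u') (h2 : dt u u' < 1) :
    ∃ e1 e2 : Fin n → ℝ, dt e1 e1 = 1 ∧ dt e2 e2 = 1 ∧ dt e1 e2 = 0 ∧
      m u + m u' = (1 + dt u u') • m e1 + (1 - dt u u') • m e2 := by
  obtain ⟨c1, hc1⟩ : ∃ c, c = dt u u' := ⟨_, rfl⟩
  rw [← hc1] at h1 h2 ⊢
  have hA : 0 < 2 + 2 * c1 := by linarith
  have hB : 0 < 2 - 2 * c1 := by linarith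
  obtain ⟨α, hα⟩ : ∃ α, α = Real.sqrt (2 + 2 * c1) := ⟨_, rfl⟩
  obtain ⟨β, hβ⟩ : ∃ β, β = Real.sqrt (2 - 2 * c1) := ⟨_, rfl⟩
  have hα0 : 0 < α := by rw [hα]; exact Real.sqrt_pos.2 hA
  have hβ0 : 0 < β := by rw [hβ]; exact Real.sqrt_pos.2 hB
  have hα2 : α ^ 2 = 2 + 2 * c1 := by rw [hα]; exact Real.sq_sqrt hA.le
  have hβ2 : β ^ 2 = 2 - 2 * c1 := by rw [hβ]; exact Real.sq_sqrt hB.le
  have h11 : dt (α⁻¹ • (u + u')) (α⁻¹ • (u + u')) = 1 := by
    rw [dt_smul_left, dt_smul_right, dt_add_left, dt_add_right, dt_add_right, hu, hu',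
      dt_comm u' u, ← hc1]
    field_simp
    rw [hα2]
    ring
  have h22 : dt (β⁻¹ • (u + (-1 : ℝ) • u')) (β⁻¹ • (u + (-1 : ℝ) • u')) = 1 := by
    rw [dt_smul_left, dt_smul_right, dt_add_left, dt_add_right, dt_add_right, dt_smul_left,
      dt_smul_right, dt_smul_left, dt_smul_right, hu, hu', dt_comm u' u, ← hc1]
    field_simp
    rw [hβ2]
    ring
  have h12 : dt (α⁻¹ • (u + u')) (β⁻¹ • (u + (-1 : ℝ) • u')) = 0 := by
    rw [dt_smul_left, dt_smul_right, dt_add_left, dt_add_right, dt_add_right,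
      dt_smul_right, dt_smul_right, hu, hu', dt_comm u' u, ← hc1]
    ring
  refine ⟨α⁻¹ • (u + u'), β⁻¹ • (u + (-1 : ℝ) • u'), h11, h22, h12, ?_⟩
  have hpol := hm.polar h11 h22 h12 (α / 2) (β / 2)
  have hudec : (α / 2) • (α⁻¹ • (u + u')) + (β / 2) • (β⁻¹ • (u + (-1 : ℝ) • u')) = u := by
    rw [smul_smul, smul_smul]
    funext i
    simp only [Pi.add_apply, Pi.smul_apply, smul_eq_mul]
    field_simp
    ring
  have hu'dec : (α / 2) • (α⁻¹ • (u + u')) - (β / 2) • (β⁻¹ • (u + (-1 : ℝ) • u')) = u' := by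
    rw [smul_smul, smul_smul]
    funext i
    simp only [Pi.add_apply, Pi.sub_apply, Pi.smul_apply, smul_eq_mul]
    field_simp
    ring
  rw [hudec, hu'dec] at hpol
  rw [hpol]
  have k1 : 2 * (α / 2) ^ 2 = 1 + c1 := by rw [div_pow, hα2]; ring
  have k2 : 2 * (β / 2) ^ 2 = 1 - c1 := by rw [div_pow, hβ2]; ring
  rw [k1, k2]

/-- the reciprocal moment decreases with the squared overlap -/
lemma Feat.GG_mono (hm : Feat m) (a : ℝ) {u u' p p' : Fin n → ℝ} (hu : dt u u = 1)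
    (hu' : dt u' u' = 1) (hp : dt p p = 1) (hp' : dt p' p' = 1)
    (hle : dt u u' ^ 2 ≤ dt p p' ^ 2) :
    GG m a (m p + m p') ≤ GG m a (m u + m u') := by
  rcases hle.eq_or_lt with heq | hlt
  · exact (hm.GG_pair_sq a (hu.trans hp.symm) (hu'.trans hp'.symm) heq).ge
  have hpp : dt p p' ^ 2 ≤ 1 := by
    have h1 := Finset.sum_mul_sq_le_sq_mul_sq Finset.univ p p'
    have h2 : ∑ i, p i ^ 2 = 1 := by
      rw [← hp]; unfold dt; exact Finset.sum_congr rfl fun i _ => by ring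
    have h3 : ∑ i, p' i ^ 2 = 1 := by
      rw [← hp']; unfold dt; exact Finset.sum_congr rfl fun i _ => by ring
    rw [h2, h3] at h1
    unfold dt
    linarith
  have hc2sq : |dt p p'| ^ 2 = dt p p' ^ 2 := sq_abs _
  have hc20 : 0 ≤ |dt p p'| := abs_nonneg _
  have hc2pos : 0 < |dt p p'| := by
    rcases hc20.eq_or_lt with h | h
    · exfalso
      rw [← hc2sq, ← h] at hlt
      nlinarith [sq_nonneg (dt u u')]
    · exact h
  have hc21 : |dt p p'| ≤ 1 := by nlinarith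
  have habs : |dt u u'| < |dt p p'| := sq_lt_sq.1 hlt
  have hc1l : -|dt p p'| < dt u u' := (abs_lt.1 habs).1
  have hc1r : dt u u' < |dt p p'| := (abs_lt.1 habs).2
  obtain ⟨e1, e2, h11, h22, h12, hS⟩ := hm.exists_plane hu hu' (by linarith) (by linarith)
  rw [hS]
  exact hm.GG_plane a h11 h22 h12 hp hp' hc2sq hc2pos hc21 hc1l hc1r

end Vale.Agent.P146.H310
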