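import Vale.Agent.P146.H97.CG2
import Vale.Agent.P146.H758.Num
import Vale.Agent.P146.H112.StartPu
import Vale.Agent.P146.H645x.BoxB
import Vale.Agent.P146.H560.Unit

/-!
# P146, lower half: the inputs of the star step, of the box bridge and of the rows (helper310)

From the removal of a small field (`H97.CG`, a theorem by `H97.cg`):
* `puC` : the constant form for the pure law (input `PuC` of helper595, `hHi` of helper645);
* `cPs` : the small form for two levels (input `CPs` of helper595);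
* `hHi_hinc` : both hypotheses of `H645x.box_Pu` with one constant, on `[u / 2, 24 u]`;
* `upP` : `Pu ((2+κ) u) - P1 (y) - n V / (2 β) ≤ C n u⁵` for `y` comparable to `u`.
-/

open MeasureTheory ProbabilityTheory Filter Topology Set

namespace Vale.Agent.P146.H310

open Vale.Agent.P157 Vale.Agent.P157.Lv Vale.Agent.P157.Lv.Sy
open Vale.Agent.P146.H425 Vale.Agent.P146.H325 Vale.Agent.P146.R1 Vale.Agent.P146.U
open Vale.Agent.P146.H93 Vale.Agent.P146.H479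
open Vale.Agent.P146.H758 (Pu Pu_zero tv Ex2 sandwich)
open Vale.Agent.P146.H97 (CG cg pure_C two_c)
open Vale.Agent.P146.H645x (Pu_conv Pu_mono box_Pu)
open Vale.Agent.P146.H560 (psiU mU bU wU em_mU)

set_option linter.unusedSectionVars false

variable {β : ℝ}

/-- The upper side of the pure law with a field, constant form (letters of helper595). -/
def PuC (β : ℝ) : Prop := ∃ C K : ℝ, ∃ n0 : ℕ, 0 < C ∧ 0 < K ∧ ∀ n : ℕ, n0 ≤ n → ∀ x V : ℝ,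
  K * (n : ℝ) ^ (-(1 / 6) : ℝ) ≤ x → x ≤ (n : ℝ) ^ (-(21 / 200) : ℝ) → 0 ≤ V →
  V ≤ 64 * x ^ 3 → Pu n β x V ≤ P1 n β x + n / (2 * β) * V + C * (n * x ^ 5)

/-- The upper side of the two level law with a small field on the first level
(letters of helper595). -/
def CPs (β : ℝ) : Prop := ∀ c' : ℝ, 0 < c' → ∃ ε K : ℝ, ∃ n0 : ℕ, 0 < ε ∧ 0 < K ∧
  ∀ n : ℕ, n0 ≤ n → ∀ x z T V : ℝ, K * (n : ℝ) ^ (-(1 / 6) : ℝ) ≤ x →
  x ≤ (n : ℝ) ^ (-(21 / 200) : ℝ) → x ≤ z → z ≤ 2 * x → 0 ≤ T → T ≤ x ^ 2 → 0 ≤ V →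
  V ≤ ε * x ^ 3 → ∀ m b w : ℕ → ℝ, Em 2 m → m 1 = x → m 2 = z →
  b 1 = β / √n * √(1 - T) → b 2 = β / √n * √T → w 1 ^ 2 = V → w 2 = 0 →
  (skS n 2 m b w).fe ≤ P2 n β x T z + n / (2 * β) * V + c' * (n * x ^ 5)

/-- The increments of the pure laws. -/
def Inc (β : ℝ) : Prop := ∃ C : ℝ, ∃ n0 : ℕ, 0 < C ∧ ∀ n : ℕ, n0 ≤ n → ∀ x y : ℝ,
  (n : ℝ) ^ (-(1 / 6) : ℝ) ≤ x → x ≤ y → y ≤ (n : ℝ) ^ (-(1 / 10) : ℝ) →
  P1 n β y ≤ P1 n β x + C * (n * y ^ 5)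

theorem puC_of (hβ : 0 < β) (hG : CG β) : PuC β := by
  obtain ⟨C, n0, hC, h⟩ := pure_C hβ hG
  exact ⟨C, 1, n0, hC, one_pos, fun n hn x V hx => h n hn x V (by rwa [one_mul] at hx)⟩

theorem cPs_of (hβ : 0 < β) (hG : CG β) : CPs β := by
  intro c' hc
  obtain ⟨ε, K, n0, hε, hK, h⟩ := two_c hβ hG hc
  exact ⟨ε, K, n0, hε, by linarith, fun n hn x z T V h1 h2 _ h3 h4 h5 h6 h7 m b w =>
    h n hn x z T V h1 h2 h3 h4 h5 h6 h7 m b w⟩

theorem inc_of (hβ : 0 ≤ β) (h2 : Ex2Out β) (hL : LStar β) : Inc β := by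
  obtain ⟨C, n0, hC, -, h⟩ := Vale.Agent.P146.H758.hinc hβ h2 hL
  exact ⟨C, n0, hC, h⟩

theorem puC (hβ : 0 < β) (h2 : Ex2Out β) (hL : LStar β) : PuC β := puC_of hβ (cg hβ h2 hL)

theorem cPs (hβ : 0 < β) (h2 : Ex2Out β) (hL : LStar β) : CPs β := cPs_of hβ (cg hβ h2 hL)

/-! ### The box bridge with constants -/

/-- the range of the scales -/
lemma ev24 : ∃ n0 : ℕ, 0 < n0 ∧ ∀ n : ℕ, n0 ≤ n → ∀ u : ℝ, u ≤ (n : ℝ) ^ (-(11 / 100) : ℝ) →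
    24 * u ≤ (n : ℝ) ^ (-(21 / 200) : ℝ) ∧ (n : ℝ) ^ (-(21 / 200) : ℝ) ≤ 1 ∧
      (n : ℝ) ^ (-(21 / 200) : ℝ) ≤ (n : ℝ) ^ (-(1 / 10) : ℝ) := by
  have h1 : Tendsto (fun n : ℕ => (n : ℝ) ^ (-(1 / 200) : ℝ)) atTop (𝓝 0) :=
    (tendsto_rpow_neg_atTop (by norm_num)).comp tendsto_natCast_atTop_atTop
  obtain ⟨n0, h⟩ := eventually_atTop.1
    ((h1.eventually_le_const (by norm_num : (0 : ℝ) < 1 / 24)).and (eventually_gt_atTop 0))
  refine ⟨n0, (h n0 le_rfl).2, fun n hn u hu => ?_⟩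
  obtain ⟨h2, h3⟩ := h n hn
  have hn' : (0 : ℝ) < n := by exact_mod_cast h3
  have hn1 : (1 : ℝ) ≤ n := by exact_mod_cast h3
  refine ⟨?_, Real.rpow_le_one_of_one_le_of_nonpos hn1 (by norm_num),
    Real.rpow_le_rpow_of_exponent_le hn1 (by norm_num)⟩
  have e : (n : ℝ) ^ (-(11 / 100) : ℝ) = (n : ℝ) ^ (-(1 / 200) : ℝ) * (n : ℝ) ^ (-(21 / 200) : ℝ) := by
    rw [← Real.rpow_add hn']
    norm_num
  have h4 : 0 < (n : ℝ) ^ (-(21 / 200) : ℝ) := Real.rpow_pos_of_pos hn' _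
  rw [e] at hu
  nlinarith

/-- **Both hypotheses of the box bridge** (`hHi`, `hinc` of `H645x.box_Pu`) with one constant. -/
theorem hHi_hinc (hP : PuC β) (hI : Inc β) : ∃ C K : ℝ, ∃ n0 : ℕ, 0 < C ∧ 0 < K ∧
    ∀ n : ℕ, n0 ≤ n → ∀ u : ℝ, K * (n : ℝ) ^ (-(1 / 6) : ℝ) ≤ u →
      u ≤ (n : ℝ) ^ (-(11 / 100) : ℝ) → 0 < u ∧ 24 * u ≤ 1 ∧
      (∀ x V, u / 2 ≤ x → x ≤ 24 * u → 0 ≤ V → V ≤ 64 * x ^ 3 →
        Pu n β x V ≤ P1 n β x + n / (2 * β) * V + C * (n * x ^ 5)) ∧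
      (∀ x y, u / 2 ≤ x → x ≤ y → y ≤ 24 * u → P1 n β y ≤ P1 n β x + C * (n * y ^ 5)) := by
  obtain ⟨C1, K1, n1, hC1, hK1, h1⟩ := hP
  obtain ⟨C2, n2, hC2, h2⟩ := hI
  obtain ⟨n3, hn3, h3⟩ := ev24
  refine ⟨C1 + C2, 2 * K1 + 2, max (max n1 n2) n3, by positivity, by positivity, ?_⟩
  intro n hn u hu hu'
  have hn1 : n1 ≤ n := (le_max_left _ _).trans ((le_max_left _ _).trans hn)
  have hn2 : n2 ≤ n := (le_max_right _ _).trans ((le_max_left _ _).trans hn)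
  have hn3' : n3 ≤ n := (le_max_right _ _).trans hn
  have hn' : (0 : ℝ) < n := by exact_mod_cast hn3.trans_le hn3'
  have hs : 0 < (n : ℝ) ^ (-(1 / 6) : ℝ) := Real.rpow_pos_of_pos hn' _
  obtain ⟨h4, h5, h6⟩ := h3 n hn3' u hu'
  have hu0 : 0 < u := lt_of_lt_of_le (by positivity) hu
  refine ⟨hu0, h4.trans h5, fun x V hx hx' hV hV' => ?_, fun x y hx hxy hy => ?_⟩
  · have hx0 : 0 < x := by linarith
    have h7 := h1 n hn1 x V (by nlinarith) (hx'.trans h4) hV hV'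
    have h8 : C1 * (n * x ^ 5) ≤ (C1 + C2) * (n * x ^ 5) :=
      mul_le_mul_of_nonneg_right (by linarith) (by positivity)
    linarith
  · have hy0 : 0 < y := by linarith
    have h7 := h2 n hn2 x y (by nlinarith) hxy ((hy.trans h4).trans h6)
    have h8 : C2 * (n * y ^ 5) ≤ (C1 + C2) * (n * y ^ 5) :=
      mul_le_mul_of_nonneg_right (by linarith) (by positivity)
    linarith

/-- **The box from its lower side**, with one constant. -/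
theorem bx_of_lo (hβ : 0 < β) (hP : PuC β) (hI : Inc β) : ∃ C K : ℝ, ∃ n0 : ℕ, 0 < C ∧ 0 < K ∧
    ∀ n : ℕ, n0 ≤ n → ∀ u B : ℝ, K * (n : ℝ) ^ (-(1 / 6) : ℝ) ≤ u →
      u ≤ (n : ℝ) ^ (-(11 / 100) : ℝ) → 0 ≤ B →
      (∀ x V, 2 * u ≤ x → x ≤ 16 * u → 0 ≤ V → V ≤ x ^ 3 →
        P1 n β x + n / (2 * β) * V - B * (n * x ^ 5) ≤ Pu n β x V) →
      ∀ v V, u / 2 ≤ v → v ≤ 4 * u → 0 ≤ V → V ≤ 8 * u ^ 3 →
        |Pu n β v V - P1 n β v - n / (2 * β) * V| ≤ C * (B + 1) * (n * u ^ 5) := by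
  obtain ⟨C, K, n0, hC, hK, h⟩ := hHi_hinc hP hI
  refine ⟨200000000 * (1 + C), K, n0, by positivity, hK, ?_⟩
  intro n hn u B hu hu' hB hLo v V h1 h2 h3 h4
  obtain ⟨hu0, hu1, hHi, hinc⟩ := h n hn u hu hu'
  refine (box_Pu hβ hu0 hu1 hB hC.le hLo hHi hinc v V h1 h2 h3 h4).trans ?_
  have h5 : 200000000 * (B + C) ≤ 200000000 * (1 + C) * (B + 1) := by nlinarith
  exact mul_le_mul_of_nonneg_right h5 (by positivity)

/-! ### The upper side for the laws of the rows -/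

/-- increments of the pure laws below the scale, from convexity -/
lemma P1_low {n : ℕ} {u : ℝ} (hu : 0 < u) (hu1 : 2 * u ≤ 1) :
    P1 n β u ≤ P1 n β (51 / 100 * u) + (P1 n β (2 * u) - P1 n β u) := by
  have h0 : ∀ x, 0 < x → x ≤ 1 → Pu n β x 0 = P1 n β x := fun x hx hx1 => Pu_zero hx hx1
  have h1 := Pu_conv (n := n) (β := β) (a := 100 / 149) (c := 49 / 149) (x := 51 / 100 * u)
    (y := 2 * u) (by positivity) (by linarith) (by positivity) hu1 (by norm_num) (by norm_num)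
    (by norm_num) 0
  have e : 100 / 149 * (51 / 100 * u) + 49 / 149 * (2 * u) = u := by ring
  rw [e, h0 u hu (by linarith), h0 _ (by positivity) (by linarith), h0 _ (by positivity) hu1]
    at h1
  have h2 := P1_mono (n := n) (β := β) hu (by linarith : u ≤ 2 * u)
  linarith

/-- **The upper side at the top of the strip** (`UpE` of helper444). -/
theorem upE_of (hβ : 0 < β) (hG : CG β) (hI : Inc β) : ∃ E0 : ℝ, 0 ≤ E0 ∧ ∀ S : ℝ, ∃ n0 : ℕ,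
    ∀ n : ℕ, n0 ≤ n → ∀ κ τ u w : ℝ, 0 < κ → κ ≤ 1 / 200 → 0 < τ → τ ≤ S →
      (n : ℝ) ^ (-(1 / 6) : ℝ) ≤ u → u ≤ (n : ℝ) ^ (-(11 / 100) : ℝ) → w ∈ Icc (0 : ℝ) 1 →
      psiU n β (1 + κ) τ u S (1 + (1 + κ)) w ≤ E0 := by
  obtain ⟨C1, n1, hC1, h1⟩ := pure_C hβ hG
  obtain ⟨C2, n2, hC2, h2⟩ := hI
  obtain ⟨n3, hn3, h3⟩ := ev24
  refine ⟨243 * C1 + 243 * C2 + 32 * C2, by positivity, fun S => ?_⟩
  obtain ⟨n4, hn4, h4⟩ := Vale.Agent.P146.H97.ev_small (c := 1 / (|S| + 1)) (by positivity)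
  refine ⟨max (max n1 n2) (max n3 n4), ?_⟩
  intro n hn κ τ u w hκ hκ' hτ hτS hu hu' hw
  have hn1 : n1 ≤ n := (le_max_left _ _).trans ((le_max_left _ _).trans hn)
  have hn2 : n2 ≤ n := (le_max_right _ _).trans ((le_max_left _ _).trans hn)
  have hn3' : n3 ≤ n := (le_max_left _ _).trans ((le_max_right _ _).trans hn)
  have hn4' : n4 ≤ n := (le_max_right _ _).trans ((le_max_right _ _).trans hn)
  have hn0 : 0 < n := hn3.trans_le hn3'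
  have hn' : (0 : ℝ) < n := by exact_mod_cast hn0
  have hs : 0 < (n : ℝ) ^ (-(1 / 6) : ℝ) := Real.rpow_pos_of_pos hn' _
  obtain ⟨h5, h6, h7⟩ := h3 n hn3' u hu'
  have hu0 : 0 < u := hs.trans_le hu
  have hS0 : 0 < S := hτ.trans_le hτS
  have hSu : S * u ^ 2 ≤ 1 := by
    have h8 := h4 n hn4' u hu0.le (by linarith)
    rw [abs_of_pos hS0, le_div_iff₀ (by positivity)] at h8
    nlinarith [sq_nonneg u]
  have hu5 : 0 < (n : ℝ) * u ^ 5 := by positivity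
  have hz : (1 + (1 + κ)) * u ≤ 3 * u := mul_le_mul_of_nonneg_right (by linarith) hu0.le
  have hz2 : 2 * u ≤ (1 + (1 + κ)) * u := mul_le_mul_of_nonneg_right (by linarith) hu0.le
  have hz0 : 0 < (1 + (1 + κ)) * u := by positivity
  have hz1 : (1 + (1 + κ)) * u ≤ 1 := by linarith
  have hwu : 0 ≤ w * u ^ 3 := mul_nonneg hw.1 (by positivity)
  have hem : Em 3 (mU (1 + κ) u (1 + (1 + κ))) := em_mU hu0 (by linarith) le_rfl hz1
  have hex : Ex2 3 (mU (1 + κ) u (1 + (1 + κ))) (51 / 100 * u) ((1 + (1 + κ)) * u) :=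
    ⟨hem, by norm_num, by positivity, hz1, le_rfl, le_rfl⟩
  have hsn : √(n : ℝ) ^ 2 = n := Real.sq_sqrt hn'.le
  have htb : tv 3 (bU n β τ u S) = β ^ 2 / n := by
    simp only [tv, Finset.sum_range_succ, Finset.range_zero, Finset.sum_empty, zero_add, bU]
    rw [mul_pow, mul_pow, mul_pow, Real.sq_sqrt (by linarith), Real.sq_sqrt
      (mul_nonneg (by linarith) (sq_nonneg u)), Real.sq_sqrt (by positivity), div_pow, hsn]
    ring
  have htw : tv 3 (wU u w) = w * u ^ 3 := by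
    simp only [tv, Finset.sum_range_succ, Finset.range_zero, Finset.sum_empty, zero_add, wU]
    rw [Real.sq_sqrt hwu]
    ring
  have h8 := (sandwich (n := n) (w := wU u w) hex hβ.le htb).2
  rw [htw] at h8
  have h9 := h1 n hn1 ((1 + (1 + κ)) * u) (w * u ^ 3) (by linarith) (by linarith) hwu (by
    have k1 : u ^ 3 ≤ ((1 + (1 + κ)) * u) ^ 3 := pow_le_pow_left₀ hu0.le (by linarith) 3
    have k2 : w * u ^ 3 ≤ 1 * u ^ 3 := mul_le_mul_of_nonneg_right hw.2 (by positivity)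
    have k3 : 0 < ((1 + (1 + κ)) * u) ^ 3 := by positivity
    linarith)
  have h10 := h2 n hn2 u ((1 + (1 + κ)) * u) hu (by linarith) (by linarith)
  have h11 := h2 n hn2 u (2 * u) hu (by linarith) (by linarith)
  have h12 := P1_low (n := n) (β := β) hu0 (by linarith)
  have h13 : ((1 + (1 + κ)) * u) ^ 5 ≤ 243 * u ^ 5 := by
    have := pow_le_pow_left₀ hz0.le hz 5
    calc ((1 + (1 + κ)) * u) ^ 5 ≤ (3 * u) ^ 5 := this
      _ = 243 * u ^ 5 := by ring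
  have h14 : (n : ℝ) * ((1 + (1 + κ)) * u) ^ 5 ≤ 243 * (n * u ^ 5) := by
    have := mul_le_mul_of_nonneg_left h13 hn'.le
    linarith
  have h15 : C1 * (n * ((1 + (1 + κ)) * u) ^ 5) ≤ C1 * (243 * (n * u ^ 5)) :=
    mul_le_mul_of_nonneg_left h14 hC1.le
  have h16 : C2 * (n * ((1 + (1 + κ)) * u) ^ 5) ≤ C2 * (243 * (n * u ^ 5)) :=
    mul_le_mul_of_nonneg_left h14 hC2.le
  have h17 : C2 * (n * (2 * u) ^ 5) = 32 * C2 * (n * u ^ 5) := by ring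
  have e : (n : ℝ) / (2 * β) * (w * u ^ 3) = n * (w * u ^ 3) / (2 * β) := by ring
  rw [e] at h9
  unfold psiU
  rw [div_le_iff₀ hu5]
  linarith

theorem upE (hβ : 0 < β) (h2 : Ex2Out β) (hL : LStar β) : ∃ E0 : ℝ, 0 ≤ E0 ∧ ∀ S : ℝ, ∃ n0 : ℕ,
    ∀ n : ℕ, n0 ≤ n → ∀ κ τ u w : ℝ, 0 < κ → κ ≤ 1 / 200 → 0 < τ → τ ≤ S →
      (n : ℝ) ^ (-(1 / 6) : ℝ) ≤ u → u ≤ (n : ℝ) ^ (-(11 / 100) : ℝ) → w ∈ Icc (0 : ℝ) 1 →
      psiU n β (1 + κ) τ u S (1 + (1 + κ)) w ≤ E0 :=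
  upE_of hβ (cg hβ h2 hL) (inc_of hβ.le h2 hL)

end Vale.Agent.P146.H310
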